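import Mathlib

/-!
The monoid of binary relations, idempotent powers, minimal idempotents and corner monoids.
-/

set_option autoImplicit false

namespace Crest.Agent.R294

/-- Binary relations under composition in reading order. -/
def BR (X : Type*) := X → X → Prop

variable {X : Type*}

instance [Finite X] : Finite (BR X) := by unfold BR; infer_instance

instance : Monoid (BR X) where
  mul r s := fun a c => ∃ b, r a b ∧ s b c
  one := fun a b => a = b
  mul_assoc r s t := by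
    funext a d
    apply propext
    constructor
    · rintro ⟨c, ⟨b, h1, h2⟩, h3⟩; exact ⟨b, h1, c, h2, h3⟩
    · rintro ⟨b, h1, c, h2, h3⟩; exact ⟨c, ⟨b, h1, h2⟩, h3⟩
  one_mul r := by
    funext a d
    apply propext
    constructor
    · rintro ⟨c, rfl, h3⟩; exact h3
    · intro h; exact ⟨a, rfl, h⟩
  mul_one r := by
    funext a d
    apply propext
    constructor
    · rintro ⟨c, h3, rfl⟩; exact h3
    · intro h; exact ⟨d, h, rfl⟩

lemma BR.mul_apply (r s : BR X) (a c : X) : (r * s) a c ↔ ∃ b, r a b ∧ s b c := Iff.rfl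
lemma BR.one_apply (a b : X) : (1 : BR X) a b ↔ a = b := Iff.rfl
lemma BR.ext {r s : BR X} (h : ∀ a b, r a b ↔ s a b) : r = s := by
  funext a b; exact propext (h a b)

/-- The identity with one more pair. -/
def E (p q : X) : BR X := fun i j => i = j ∨ (i = p ∧ j = q)

/-- Partial identity. -/
def D (P : X → Prop) : BR X := fun i j => i = j ∧ P i

/-- Restriction to a subtype. -/
def res (P : X → Prop) (r : BR X) : BR {x // P x} := fun i j => r i.1 j.1

lemma res_mul_D_mul (P : X → Prop) (r s : BR X) : res P (r * D P * s) = res P r * res P s := by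
  apply BR.ext
  intro a b
  simp only [res, BR.mul_apply, D]
  constructor
  · rintro ⟨c, ⟨d, h1, rfl, h2⟩, h3⟩; exact ⟨⟨d, h2⟩, h1, h3⟩
  · rintro ⟨c, h1, h2⟩; exact ⟨c.1, ⟨c.1, h1, rfl, c.2⟩, h2⟩

lemma D_mul_D_of_res {P : X → Prop} {r : BR X} (h : res P r = 1) : D P * r * D P = D P := by
  apply BR.ext
  intro a b
  simp only [BR.mul_apply, D]
  constructor
  · rintro ⟨c, ⟨d, ⟨rfl, h1⟩, h2⟩, rfl, h3⟩
    have : res P r ⟨a, h1⟩ ⟨c, h3⟩ := h2
    rw [h] at this
    exact ⟨congrArg Subtype.val this, h1⟩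
  · rintro ⟨rfl, h1⟩
    have : res P r ⟨a, h1⟩ ⟨a, h1⟩ := by rw [h]; rfl
    exact ⟨a, ⟨a, ⟨rfl, h1⟩, this⟩, rfl, h1⟩

lemma res_surj (P : X → Prop) (b : BR {x // P x}) :
    ∃ r : BR X, res P r = b ∧ D P * r * D P = r := by
  refine ⟨fun i j => ∃ (hi : P i) (hj : P j), b ⟨i, hi⟩ ⟨j, hj⟩, ?_, ?_⟩
  · apply BR.ext
    intro a c
    simp only [res]
    exact ⟨fun ⟨_, _, h⟩ => h, fun h => ⟨a.2, c.2, h⟩⟩
  · apply BR.ext
    intro a c
    simp only [BR.mul_apply, D]
    constructor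
    · rintro ⟨c, ⟨d, ⟨rfl, h1⟩, h2⟩, rfl, h3⟩; exact h2
    · rintro ⟨h1, h2, h3⟩; exact ⟨c, ⟨a, ⟨rfl, h1⟩, h1, h2, h3⟩, rfl, h2⟩

/-- Graph of a permutation. -/
def G (σ : Equiv.Perm X) : BR X := fun u v => σ u = v

lemma G_mul_inv (σ : Equiv.Perm X) : G σ * G σ⁻¹ = 1 := by
  apply BR.ext
  intro a b
  simp [BR.mul_apply, G, BR.one_apply]

lemma G_conj (σ : Equiv.Perm X) (i j : X) : G σ * E (σ i) (σ j) * G σ⁻¹ = E i j := by
  apply BR.ext
  intro a b
  simp only [BR.mul_apply, G, E]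
  constructor
  · rintro ⟨c, ⟨d, rfl, (rfl | ⟨h1, rfl⟩)⟩, rfl⟩
    · left; simp
    · right; exact ⟨σ.injective h1, by simp⟩
  · rintro (rfl | ⟨rfl, rfl⟩)
    · exact ⟨σ a, ⟨σ a, rfl, Or.inl rfl⟩, by simp⟩
    · exact ⟨σ b, ⟨σ a, rfl, Or.inr ⟨rfl, rfl⟩⟩, by simp⟩

lemma exists_perm_two {i j p q : X} (hij : i ≠ j) (hpq : p ≠ q) :
    ∃ σ : Equiv.Perm X, σ i = p ∧ σ j = q := by
  classical
  have h1 : Equiv.swap i p j ≠ p := by
    intro h
    apply hij
    apply (Equiv.swap i p).injective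
    rw [h]; simp
  refine ⟨Equiv.swap (Equiv.swap i p j) q * Equiv.swap i p, ?_, ?_⟩
  · simp only [Equiv.Perm.coe_mul, Function.comp, Equiv.swap_apply_left]
    exact Equiv.swap_apply_of_ne_of_ne h1.symm hpq
  · simp

section Mon

variable {S : Type*} [Monoid S]

lemma exists_idem_pow [Finite S] (s : S) : ∃ N, s ^ (N + 1) * s ^ (N + 1) = s ^ (N + 1) := by
  obtain ⟨i, j, hij, h⟩ := Finite.exists_ne_map_eq_of_infinite (fun n : ℕ => s ^ n)
  wlog hlt : i < j generalizing i j
  · exact this j i hij.symm h.symm (by omega)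
  obtain ⟨d, rfl⟩ := Nat.exists_eq_add_of_lt hlt
  have h1 : ∀ m, s ^ (i + m * (d + 1)) = s ^ i := by
    intro m
    induction m with
    | zero => simp
    | succ m ih =>
      have : i + (m + 1) * (d + 1) = (i + d + 1) + m * (d + 1) := by ring
      rw [this, pow_add, ← h, ← pow_add, ih]
  obtain ⟨N, hN⟩ : ∃ N, N + 1 = (i + 1) * (d + 1) := ⟨i * d + i + d, by ring⟩
  refine ⟨N, ?_⟩
  have h2 : N + 1 = i + (i * d + d + 1) := by rw [hN]; ring
  rw [← pow_add]
  have h3 : N + 1 + (N + 1) = (i + (i + 1) * (d + 1)) + (i * d + d + 1) := by rw [hN]; ring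
  rw [h3, pow_add, h1, ← pow_add, h2]

/-- An idempotent positive power. -/
noncomputable def idem [Finite S] (s : S) : S := s ^ ((exists_idem_pow s).choose + 1)

lemma idem_mul_idem [Finite S] (s : S) : idem s * idem s = idem s :=
  (exists_idem_pow s).choose_spec

lemma map_idem [Finite S] {T : Type*} [Monoid T] (φ : S →* T) {s : S} (h : φ s * φ s = φ s) :
    φ (idem s) = φ s := by
  unfold idem
  rw [map_pow]
  exact IsIdempotentElem.pow_succ_eq _ h

lemma mul_idem [Finite S] {e s : S} (h : e * s = s) : e * idem s = idem s := by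
  unfold idem
  rw [pow_succ', ← mul_assoc, h]

lemma idem_mul [Finite S] {e s : S} (h : s * e = s) : idem s * e = idem s := by
  unfold idem
  rw [pow_succ, mul_assoc, h]

lemma exists_min_idem [Finite S] {T : Type*} (φ : S → T) {g₀ : S} (hg₀ : g₀ * g₀ = g₀) :
    ∃ g, g * g = g ∧ g₀ * g = g ∧ g * g₀ = g ∧ φ g = φ g₀ ∧
      ∀ g', g' * g' = g' → g * g' = g' → g' * g = g' → φ g' = φ g → g' = g := by
  have hwf : WellFounded (fun g' g : S => g' ≠ g ∧ g * g' = g' ∧ g' * g = g') := by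
    have : IsTrans S (fun g' g : S => g' ≠ g ∧ g * g' = g' ∧ g' * g = g') := by
      refine ⟨fun a b c h1 h2 => ⟨?_, ?_, ?_⟩⟩
      · rintro rfl
        exact h1.1 (h1.2.1.symm.trans h2.2.2)
      · rw [← h1.2.1, ← mul_assoc, h2.2.1]
      · rw [← h1.2.2, mul_assoc, h2.2.2]
    have : Std.Irrefl (fun g' g : S => g' ≠ g ∧ g * g' = g' ∧ g' * g = g') :=
      ⟨fun a h => h.1 rfl⟩
    exact Finite.wellFounded_of_trans_of_irrefl _
  obtain ⟨g, ⟨h1, h2, h3, h4⟩, hmin⟩ := hwf.has_min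
    {g | g * g = g ∧ g₀ * g = g ∧ g * g₀ = g ∧ φ g = φ g₀} ⟨g₀, hg₀, hg₀, hg₀, rfl⟩
  refine ⟨g, h1, h2, h3, h4, fun g' a1 a2 a3 a4 => ?_⟩
  by_contra hne
  refine hmin g' ⟨a1, ?_, ?_, a4.trans h4⟩ ⟨hne, a2, a3⟩
  · rw [← a2, ← mul_assoc, h2]
  · rw [← a3, mul_assoc, h3]

/-- The local monoid at an idempotent. -/
def Corner (e : S) (_he : e * e = e) := {s : S // e * s = s ∧ s * e = s}

instance (e : S) (he : e * e = e) [Finite S] : Finite (Corner e he) := by
  unfold Corner; infer_instance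

instance (e : S) (he : e * e = e) : Monoid (Corner e he) where
  mul a b := ⟨a.1 * b.1, by rw [← mul_assoc, a.2.1], by rw [mul_assoc, b.2.2]⟩
  one := ⟨e, he, he⟩
  mul_assoc a b c := Subtype.ext (mul_assoc a.1 b.1 c.1)
  one_mul a := Subtype.ext a.2.1
  mul_one a := Subtype.ext a.2.2

lemma Corner.mul_val {e : S} {he : e * e = e} (a b : Corner e he) : (a * b).1 = a.1 * b.1 := rfl
lemma Corner.one_val {e : S} {he : e * e = e} : (1 : Corner e he).1 = e := rfl

/-- Localisation: below an idempotent that restricts to the identity on `P` there is a minimal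
idempotent whose local monoid maps onto the relations on `P`. -/
lemma localise [Finite S] (φ : S →* BR X) (hφ : Function.Surjective φ) {f : S} (hf : f * f = f)
    (P : X → Prop) (hP : res P (φ f) = 1) :
    ∃ (e : S) (he : e * e = e), f * e = e ∧ e * f = e ∧ ∃ φ' : Corner e he →* BR {x // P x},
      (∀ s, φ' s = res P (φ s.1)) ∧ Function.Surjective φ' ∧
      (∀ g : Corner e he, g * g = g → φ' g = 1 → g = 1) ∧
      ∀ y, f * y = y → y * f = y → res P (φ (e * y * e)) = res P (φ y) := by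
  obtain ⟨d, hd⟩ := hφ (D P)
  have hD := D_mul_D_of_res hP
  set a := φ f with ha
  have haa : a * a = a := by rw [ha, ← map_mul, hf]
  have haa' : ∀ r, a * (a * r) = a * r := fun r => by rw [← mul_assoc, haa]
  have hD' : ∀ r, D P * (a * (D P * r)) = D P * r := fun r => by
    rw [← mul_assoc, ← mul_assoc, hD]
  have h0 : φ (f * d * f) = a * D P * a := by simp [hd, ha]
  have h1 : φ (idem (f * d * f)) = a * D P * a := by
    rw [map_idem φ, h0]
    rw [h0]; simp only [mul_assoc, haa', hD']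
  obtain ⟨e, he, e1, e2, e3, emin⟩ := exists_min_idem φ (idem_mul_idem (f * d * f))
  rw [h1] at e3
  have hfe : f * e = e := by
    rw [← e1, ← mul_assoc, mul_idem]; rw [← mul_assoc, ← mul_assoc, hf]
  have hef : e * f = e := by
    rw [← e2, mul_assoc, idem_mul]; rw [mul_assoc, hf]
  have hl : ∀ s : Corner e he, a * φ s.1 = φ s.1 := fun s => by
    rw [ha, ← map_mul, ← s.2.1, ← mul_assoc, hfe]
  have hr : ∀ s : Corner e he, φ s.1 * a = φ s.1 := fun s => by
    rw [ha, ← map_mul, ← s.2.2, mul_assoc, hef]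
  have hres : ∀ y, f * y = y → y * f = y → res P (φ (e * y * e)) = res P (φ y) := by
    intro y y1 y2
    have y1' : a * φ y = φ y := by rw [ha, ← map_mul, y1]
    have y2' : φ y * a = φ y := by rw [ha, ← map_mul, y2]
    have : φ (e * y * e) = a * D P * (φ y * D P * a) := by
      rw [map_mul, map_mul, e3]
      conv_rhs => rw [← y1', ← y2']
      simp only [mul_assoc]
    rw [this, res_mul_D_mul, res_mul_D_mul, hP, one_mul, mul_one]
  refine ⟨e, he, hfe, hef, ⟨⟨fun s => res P (φ s.1), ?_⟩, ?_⟩, fun _ => rfl, ?_, ?_, hres⟩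
  · rw [Corner.one_val, e3, res_mul_D_mul, hP, one_mul]
  · intro s s'
    show res P (φ (s.1 * s'.1)) = res P (φ s.1) * res P (φ s'.1)
    rw [← res_mul_D_mul]
    congr 1
    conv_lhs => rw [← s.2.2, map_mul, map_mul, e3]
    conv_rhs => rw [← hl s', ← hr s]
    simp only [mul_assoc]
  · intro b
    obtain ⟨r, hr1, hr2⟩ := res_surj P b
    obtain ⟨s, hs⟩ := hφ r
    refine ⟨⟨e * (f * s * f) * e, by simp only [← mul_assoc, he], by simp only [mul_assoc, he]⟩,
      ?_⟩
    show res P (φ (e * (f * s * f) * e)) = b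
    rw [hres _ (by simp only [← mul_assoc, hf]) (by simp only [mul_assoc, hf])]
    have : φ (f * s * f) = a * D P * (r * D P * a) := by
      rw [map_mul, map_mul, hs]
      conv_lhs => rw [← hr2]
      simp only [mul_assoc, ha]
    rw [this, res_mul_D_mul, res_mul_D_mul, hP, one_mul, mul_one, hr1]
  · intro g hg hg1
    apply Subtype.ext
    refine emin g.1 (congrArg Subtype.val hg) g.2.1 g.2.2 ?_
    have h2 : D P * φ g.1 * D P = D P := D_mul_D_of_res hg1
    have h3 : φ g.1 = φ e * φ g.1 * φ e := by rw [← map_mul, ← map_mul, g.2.1, g.2.2]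
    rw [h3, e3]
    conv_rhs => rw [← h2, ← hl g, ← hr g]
    simp only [mul_assoc]

end Mon

end Crest.Agent.R294
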