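import Crest.Agent.R294.Chain
import Crest.Agent.R294.Rel

/-!
The exponential lower bound on supports.
-/

set_option autoImplicit false

namespace Crest.Agent.R294

universe u v

variable {Q : Type u}

/-- Partial identity off `t`, with the pairs of `R`. -/
def DR {X : Type*} (t : X) (R : Set (X × X)) : BR X := fun i j => (i = j ∧ i ≠ t) ∨ (i, j) ∈ R

lemma DR_mul {X : Type*} {t : X} {A B : Set X} (htA : t ∉ A) (htB : t ∉ B) (hAB : Disjoint A B)
    {R R' : Set (X × X)} (hR : R ⊆ A ×ˢ B) (hR' : R' ⊆ A ×ˢ B) :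
    DR t R * DR t R' = DR t (R ∪ R') := by
  apply BR.ext
  intro i j
  simp only [BR.mul_apply, DR, Set.mem_union]
  constructor
  · rintro ⟨c, (⟨rfl, h1⟩ | h1), (⟨rfl, h2⟩ | h2)⟩
    · exact Or.inl ⟨rfl, h1⟩
    · exact Or.inr (Or.inr h2)
    · exact Or.inr (Or.inl h1)
    · exact absurd (hR' h2).1 (Set.disjoint_right.1 hAB (hR h1).2)
  · rintro (⟨rfl, h⟩ | h | h)
    · exact ⟨i, Or.inl ⟨rfl, h⟩, Or.inl ⟨rfl, h⟩⟩
    · exact ⟨j, Or.inr h, Or.inl ⟨rfl, fun hh => htB (hh ▸ (hR h).2)⟩⟩
    · exact ⟨i, Or.inl ⟨rfl, fun hh => htA (hh ▸ (hR' h).1)⟩, Or.inr h⟩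

lemma DR_gadget {X : Type*} {t i j : X} (hi : i ≠ t) (hj : j ≠ t) :
    DR t ∅ * (E i t * E t j) * DR t ∅ = DR t {(i, j)} := by
  apply BR.ext
  intro a b
  simp only [BR.mul_apply, DR, E, Set.mem_empty_iff_false, or_false, Set.mem_singleton_iff,
    Prod.mk.injEq]
  constructor
  · rintro ⟨c, ⟨d, ⟨rfl, h1⟩, m, h2, h3⟩, rfl, h4⟩
    rcases h2 with rfl | ⟨rfl, rfl⟩
    · rcases h3 with rfl | ⟨rfl, rfl⟩
      · exact Or.inl ⟨rfl, h1⟩
      · exact absurd rfl h1
    · rcases h3 with rfl | ⟨-, rfl⟩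
      · exact absurd rfl h4
      · exact Or.inr ⟨rfl, rfl⟩
  · rintro (⟨rfl, h⟩ | ⟨rfl, rfl⟩)
    · exact ⟨a, ⟨a, ⟨rfl, h⟩, a, Or.inl rfl, Or.inl rfl⟩, rfl, h⟩
    · exact ⟨b, ⟨a, ⟨rfl, hi⟩, t, Or.inr ⟨rfl, rfl⟩, Or.inr ⟨rfl, rfl⟩⟩, rfl, hj⟩

lemma loc_of {S : Type v} [Monoid S] (ψ : S →ₙ* TR Q) {e y : S} (h1 : e * y = y)
    (h2 : y * e = y) : Loc (ψ e) (ψ y) :=
  ⟨by rw [← map_mul, h1], by rw [← map_mul, h2]⟩

lemma supp_idem {S : Type v} [Monoid S] [Finite S] (ψ : S →ₙ* TR Q) {e y : S} (h1 : e * y = y)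
    (h2 : y * e = y) : supp (ψ e) (ψ (idem y)) ⊆ supp (ψ e) (ψ y) := by
  have key : ∀ N, supp (ψ e) (ψ (y ^ (N + 1))) ⊆ supp (ψ e) (ψ y) := by
    intro N
    induction N with
    | zero => simp
    | succ N ih =>
      rw [pow_succ, map_mul]
      refine (supp_mul (loc_of ψ ?_ ?_) (loc_of ψ h1 h2)).trans (Set.union_subset ih le_rfl)
      · rw [pow_succ', ← mul_assoc, h1]
      · rw [pow_succ, mul_assoc, h2]
  exact key _

lemma ncard_iUnion_le {ι α : Type*} [Fintype ι] [Finite α] (s : ι → Set α) (c : ℕ)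
    (h : ∀ i, (s i).ncard ≤ c) : (⋃ i, s i).ncard ≤ Fintype.card ι * c := by
  classical
  have key : ∀ T : Finset ι, (⋃ i ∈ T, s i).ncard ≤ T.card * c := by
    intro T
    induction T using Finset.induction_on with
    | empty => simp
    | insert a T ha ih =>
      rw [Finset.set_biUnion_insert, Finset.card_insert_of_notMem ha]
      have := Set.ncard_union_le (s a) (⋃ i ∈ T, s i)
      have := h a
      nlinarith
  simpa using key Finset.univ

theorem supp_lower [Finite Q] [Nonempty Q] (k μ : ℕ) (hμ1 : 1 ≤ μ) (hk : 8 * μ ^ 3 ≤ k) (n : ℕ) :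
    ∀ (X : Type) [Fintype X] (S : Type v) [Monoid S] [Finite S] (ψ : S →ₙ* TR Q)
      (φ : S →* BR X), Function.Surjective φ →
      (∀ e y : S, e * e = e → e * y = y → y * e = y → (∀ p q, ψ e p q → ψ y p q) →
        ∀ i j, φ y i j → φ e i j) →
      (2 ≤ μ ∨ ∀ s, Functional (ψ s)) →
      (∀ g : S, g * g = g → φ g = 1 → g = 1) →
      2 + (2 * k - 1) * n ≤ Fintype.card X →
      ∀ (p q : X), p ≠ q → ∀ x : S, φ x = E p q → 2 ^ n ≤ (supp (ψ 1) (ψ x)).ncard := by
  have hμ3 : 1 ≤ μ ^ 3 := Nat.one_le_pow _ _ hμ1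
  have hk1 : 1 ≤ k := by omega
  induction n with
  | zero =>
    intro X _ S _ _ ψ φ hsurj hord hfn hmin hcard p q hpq x hx
    rw [pow_zero, Nat.one_le_iff_ne_zero]
    intro h0
    rw [Set.ncard_eq_zero] at h0
    have h1 := le_of_supp_empty (loc_of ψ (one_mul 1) (one_mul 1))
      (loc_of ψ (one_mul x) (mul_one x)) h0
    have h2 := hord 1 x (one_mul 1) (one_mul x) (mul_one x) h1 p q
      (by rw [hx]; exact Or.inr ⟨rfl, rfl⟩)
    rw [map_one] at h2
    exact hpq h2
  | succ n ih =>
    intro X _ S _ _ ψ φ hsurj hord hfn hmin hcard p q hpq x hx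
    classical
    have hfn' : ∀ s, 2 ≤ μ ∨ (1 ≤ μ ∧ Functional (ψ s)) := fun s =>
      hfn.imp id (fun h => ⟨hμ1, h s⟩)
    have h11 : Loc (ψ 1) (ψ 1) := loc_of ψ (one_mul 1) (one_mul 1)
    have h1s : ∀ s, Loc (ψ 1) (ψ s) := fun s => loc_of ψ (one_mul s) (mul_one s)
    set u := (supp (ψ 1) (ψ x)).ncard with hu
    -- conjugates of `x`
    have conj : ∀ ij : X × X, ∃ x' : S, ij.1 ≠ ij.2 →
        φ x' = E ij.1 ij.2 ∧ (supp (ψ 1) (ψ x')).ncard ≤ μ * u := by
      rintro ⟨i, j⟩
      by_cases hij : i = j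
      · exact ⟨1, fun h => absurd hij h⟩
      obtain ⟨σ, h1, h2⟩ := exists_perm_two hij hpq
      obtain ⟨g, hg⟩ := hsurj (G σ)
      obtain ⟨g₂, hg₂⟩ := hsurj (G σ⁻¹)
      have h3 : φ (g * g₂) = 1 := by rw [map_mul, hg, hg₂, G_mul_inv]
      obtain ⟨N, hN⟩ := exists_idem_pow (g * g₂)
      have h4 : (g * g₂) ^ (N + 1) = 1 := hmin _ hN (by rw [map_pow, h3, one_pow])
      have h5 : g * (g₂ * (g * g₂) ^ N) = 1 := by rw [← mul_assoc, ← pow_succ', h4]
      obtain ⟨Nb, -, hN2, hN3⟩ := transfer (α := ψ g) (β := ψ (g₂ * (g * g₂) ^ N)) h11 h11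
        (by rw [← map_mul, ← map_mul, mul_one, h5]) (hfn' 1)
      refine ⟨g * x * (g₂ * (g * g₂) ^ N), fun _ => ⟨?_, ?_⟩⟩
      · rw [map_mul, map_mul, map_mul, map_pow, h3, one_pow, mul_one, hg, hg₂, hx, ← h1, ← h2,
          G_conj]
      · rw [map_mul, map_mul]
        exact (Set.ncard_le_ncard (hN3 _ (h1s x))).trans (hN2 _)
    choose xx hxx using conj
    -- the vertices of the gadget
    obtain ⟨ι⟩ : Nonempty (Option (Fin k ⊕ Fin k) ↪ X) := by
      apply Function.Embedding.nonempty_of_card_le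
      simp only [Fintype.card_option, Fintype.card_sum, Fintype.card_fin]
      have : (2 * k - 1) * (n + 1) = (2 * k - 1) * n + (2 * k - 1) := by ring
      omega
    let t : X := ι none
    let a : Fin k → X := fun i => ι (some (Sum.inl i))
    let b : Fin k → X := fun i => ι (some (Sum.inr i))
    have hat' : ∀ i, a i ≠ t := fun i h => by simpa using ι.injective h
    have hbt : ∀ i, b i ≠ t := fun i h => by simpa using ι.injective h
    have hab : ∀ i j, a i ≠ b j := fun i j h => by simpa using ι.injective h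
    have hainj : Function.Injective a := fun i j h => by simpa using ι.injective h
    have hbinj : Function.Injective b := fun i j h => by simpa using ι.injective h
    have htA : t ∉ Set.range a := fun ⟨i, h⟩ => hat' i h
    have htB : t ∉ Set.range b := fun ⟨i, h⟩ => hbt i h
    have hAB : Disjoint (Set.range a) (Set.range b) := by
      rw [Set.disjoint_left]; rintro _ ⟨i, rfl⟩ ⟨j, h⟩; exact hab i j h.symm
    obtain ⟨d, hd⟩ := hsurj (DR t ∅)
    have hDD : ∀ R : Set (X × X), R ⊆ Set.range a ×ˢ Set.range b → DR t R * DR t R = DR t R :=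
      fun R hR => by rw [DR_mul htA htB hAB hR hR, Set.union_self]
    set e' := idem d with he'
    have hee : e' * e' = e' := idem_mul_idem d
    have hφe : φ e' = DR t ∅ := by
      rw [he', map_idem φ, hd]; rw [hd]; exact hDD _ (Set.empty_subset _)
    have hLe : Loc (ψ e') (ψ e') := loc_of ψ hee hee
    obtain ⟨Nb, hNb1, hNb2, hNb3⟩ := transfer (α := ψ e') (β := ψ e') h11 hLe
      (by rw [← map_mul, ← map_mul, mul_one, hee]) (hfn' e')
    let W₀ : Set (Set (Q × Bool)) := ⋃ c : Fin k ⊕ Fin k,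
      supp (ψ 1) (ψ (xx (Sum.elim (fun i => (a i, t)) (fun j => (t, b j)) c)))
    have hW₀ : W₀.ncard ≤ 2 * k * (μ * u) := by
      have := ncard_iUnion_le (fun c : Fin k ⊕ Fin k =>
        supp (ψ 1) (ψ (xx (Sum.elim (fun i => (a i, t)) (fun j => (t, b j)) c)))) (μ * u) (by
          rintro (i | j)
          · exact (hxx (a i, t) (hat' i)).2
          · exact (hxx (t, b j) (hbt j).symm).2)
      simpa [two_mul] using this
    let π : Fin (k * k) ≃ Fin k × Fin k := finProdFinEquiv.symm
    let z : ℕ → S := fun j => if h : j < k * k then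
      e' * (xx (a (π ⟨j, h⟩).1, t) * xx (t, b (π ⟨j, h⟩).2)) * e' else e'
    let R : ℕ → Set (X × X) := fun j =>
      {c | ∃ l : Fin (k * k), l.1 < j ∧ c = (a (π l).1, b (π l).2)}
    let R1 : ℕ → Set (X × X) := fun j =>
      {c | ∃ l : Fin (k * k), l.1 = j ∧ c = (a (π l).1, b (π l).2)}
    have hR : ∀ j, R j ⊆ Set.range a ×ˢ Set.range b := by
      rintro j _ ⟨l, -, rfl⟩; exact ⟨⟨_, rfl⟩, ⟨_, rfl⟩⟩
    have hR1 : ∀ j, R1 j ⊆ Set.range a ×ˢ Set.range b := by
      rintro j _ ⟨l, -, rfl⟩; exact ⟨⟨_, rfl⟩, ⟨_, rfl⟩⟩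
    have hRs : ∀ j, R j ∪ R1 j ∪ R j = R (j + 1) := by
      intro j
      ext c
      simp only [R, R1, Set.mem_union, Set.mem_ofPred_eq]
      constructor
      · rintro ((⟨l, h1, h2⟩ | ⟨l, h1, h2⟩) | ⟨l, h1, h2⟩) <;> exact ⟨l, by omega, h2⟩
      · rintro ⟨l, h1, h2⟩
        by_cases h : l.1 = j
        · exact Or.inl (Or.inr ⟨l, h, h2⟩)
        · exact Or.inr ⟨l, by omega, h2⟩
    have hz1 : ∀ j, e' * z j = z j := by
      intro j; simp only [z]; split_ifs
      · simp only [← mul_assoc, hee]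
      · exact hee
    have hz2 : ∀ j, z j * e' = z j := by
      intro j; simp only [z]; split_ifs
      · simp only [mul_assoc, hee]
      · exact hee
    have hzφ : ∀ j, φ (z j) = DR t (R1 j) := by
      intro j; simp only [z]; split_ifs with h
      · rw [map_mul, map_mul, map_mul, hφe, (hxx (_, t) (hat' _)).1, (hxx (t, _) (hbt _).symm).1,
          DR_gadget (hat' _) (hbt _)]
        congr 1
        ext c
        simp only [R1, Set.mem_singleton_iff, Set.mem_ofPred_eq]
        constructor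
        · rintro rfl; exact ⟨⟨j, h⟩, rfl, rfl⟩
        · rintro ⟨l, rfl, rfl⟩; rfl
      · rw [hφe]
        congr 1
        ext c
        simp only [R1, Set.mem_empty_iff_false, Set.mem_ofPred_eq, false_iff]
        rintro ⟨l, rfl, -⟩; exact h l.2
    have hzW : ∀ j, supp (ψ e') (ψ (z j)) ⊆ Nb W₀ := by
      intro j; simp only [z]; split_ifs with h
      · rw [map_mul, map_mul]
        refine (hNb3 _ (h1s _)).trans (hNb1 ?_)
        rw [map_mul]
        refine (supp_mul (h1s _) (h1s _)).trans (Set.union_subset ?_ ?_)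
        · exact Set.subset_iUnion_of_subset (Sum.inl _) le_rfl
        · exact Set.subset_iUnion_of_subset (Sum.inr _) le_rfl
      · rw [supp_self]; exact Set.empty_subset _
    let f : ℕ → S := fun j => Nat.rec e' (fun j fj => idem (fj * z j * fj)) j
    have hf0 : f 0 = e' := rfl
    have hfs : ∀ j, f (j + 1) = idem (f j * z j * f j) := fun j => rfl
    have hff : ∀ j, f j * f j = f j := by
      intro j
      cases j with
      | zero => exact hee
      | succ j => rw [hfs]; exact idem_mul_idem _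
    have hfl : ∀ j, f j * f (j + 1) = f (j + 1) := fun j => by
      rw [hfs]; exact mul_idem (by simp only [← mul_assoc, hff])
    have hfr : ∀ j, f (j + 1) * f j = f (j + 1) := fun j => by
      rw [hfs]; exact idem_mul (by simp only [mul_assoc, hff])
    have hef : ∀ j, e' * f j = f j ∧ f j * e' = f j := by
      intro j
      induction j with
      | zero => exact ⟨hee, hee⟩
      | succ j ih =>
        exact ⟨by rw [← hfl, ← mul_assoc, ih.1], by rw [← hfr, mul_assoc, ih.2]⟩
    have hfφ : ∀ j, φ (f j) = DR t (R j) := by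
      intro j
      induction j with
      | zero =>
        rw [hf0, hφe]; congr 1; ext c; simp [R]
      | succ j ih =>
        have : φ (f j * z j * f j) = DR t (R (j + 1)) := by
          rw [map_mul, map_mul, ih, hzφ, DR_mul htA htB hAB (hR j) (hR1 j),
            DR_mul htA htB hAB (Set.union_subset (hR j) (hR1 j)) (hR j), hRs]
        rw [hfs, map_idem φ, this]
        rw [this]; exact hDD _ (hR _)
    have hfW : ∀ j, supp (ψ e') (ψ (f j)) ⊆ Nb W₀ := by
      intro j
      induction j with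
      | zero => rw [hf0, supp_self]; exact Set.empty_subset _
      | succ j ih =>
        rw [hfs]
        refine (supp_idem ψ (by simp only [← mul_assoc, (hef j).1])
          (by simp only [mul_assoc, (hef j).2])).trans ?_
        rw [map_mul, map_mul]
        have l1 := loc_of ψ (hef j).1 (hef j).2
        have l2 := loc_of ψ (hz1 j) (hz2 j)
        refine (supp_mul (l1.mul l2) l1).trans (Set.union_subset ?_ ih)
        exact (supp_mul l1 l2).trans (Set.union_subset ih (hzW j))
    have hchain := chain_bound (fun j => ψ (f j)) (k * k) (fun j => loc_of ψ (hff j) (hff j))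
      (fun j => loc_of ψ (hfl j) (hfr j)) (Nb W₀) hfW
    -- each step of the chain is expensive
    have hstep : ∀ j ∈ Finset.range (k * k), 2 ^ n ≤ μ * (supp (ψ (f j)) (ψ (f (j + 1)))).ncard := by
      intro j hj
      rw [Finset.mem_range] at hj
      let l : Fin (k * k) := ⟨j, hj⟩
      let P : X → Prop := fun y => y ∉ Set.range ι ∨ y = a (π l).1 ∨ y = b (π l).2
      have hPt : ∀ y, P y → y ≠ t := by
        rintro y (h | rfl | rfl)
        · rintro rfl; exact h ⟨none, rfl⟩
        · exact hat' _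
        · exact hbt _
      have hPl : ∀ l' : Fin (k * k), P (a (π l').1) → P (b (π l').2) → l' = l := by
        intro l' h1 h2
        apply π.injective
        ext1
        · rcases h1 with h | h | h
          · exact absurd ⟨_, rfl⟩ h
          · exact hainj h
          · exact absurd h (hab _ _)
        · rcases h2 with h | h | h
          · exact absurd ⟨_, rfl⟩ h
          · exact absurd h.symm (hab _ _)
          · exact hbinj h
      have hres1 : res P (φ (f j)) = 1 := by
        rw [hfφ]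
        apply BR.ext
        rintro ⟨y, hy⟩ ⟨y', hy'⟩
        simp only [res, DR, BR.one_apply, Subtype.mk.injEq]
        constructor
        · rintro (h | ⟨l', h1, h2⟩)
          · exact h.1
          · simp only [Prod.mk.injEq] at h2
            obtain ⟨rfl, rfl⟩ := h2
            have := hPl l' hy hy'
            subst this
            exact absurd h1 (lt_irrefl _)
        · intro h; exact Or.inl ⟨h, hPt y hy⟩
      let p' : {y // P y} := ⟨a (π l).1, Or.inr (Or.inl rfl)⟩
      let q' : {y // P y} := ⟨b (π l).2, Or.inr (Or.inr rfl)⟩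
      have hres2 : res P (φ (f (j + 1))) = E p' q' := by
        rw [hfφ (j + 1)]
        apply BR.ext
        rintro ⟨y, hy⟩ ⟨y', hy'⟩
        simp only [res, DR, E, Subtype.mk.injEq, p', q']
        constructor
        · rintro (h | ⟨l', h1, h2⟩)
          · exact Or.inl h.1
          · simp only [Prod.mk.injEq] at h2
            obtain ⟨rfl, rfl⟩ := h2
            have := hPl l' hy hy'
            subst this
            exact Or.inr ⟨rfl, rfl⟩
        · rintro (h | ⟨rfl, rfl⟩)
          · exact Or.inl ⟨h, hPt y hy⟩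
          · exact Or.inr ⟨l, Nat.lt_succ_self _, rfl⟩
      obtain ⟨e, he, hfe, hef', φ', hφ', hsurj', hmin', hres'⟩ := localise φ hsurj (hff j) P hres1
      let ψ' : Corner e he →ₙ* TR Q := ⟨fun s => ψ s.1, fun s s' => map_mul ψ s.1 s'.1⟩
      have hcard' : 2 + (2 * k - 1) * n ≤ Fintype.card {y // P y} := by
        have h1 : Fintype.card {y // P y} = (Finset.univ.filter P).card := Fintype.card_subtype _
        have h2 : Finset.univ.filter P = insert (a (π l).1) (insert (b (π l).2)
            (Finset.univ \ Finset.univ.map ι)) := by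
          ext y
          simp only [P, Finset.mem_filter, Finset.mem_univ, true_and, Finset.mem_insert,
            Finset.mem_sdiff, Finset.mem_map, Set.mem_range]
          tauto
        have h3 : (Finset.univ \ Finset.univ.map ι).card = Fintype.card X - (2 * k + 1) := by
          rw [Finset.card_univ_sdiff, Finset.card_map]
          simp [two_mul]
        rw [h1, h2, Finset.card_insert_of_notMem, Finset.card_insert_of_notMem, h3]
        · have : (2 * k - 1) * (n + 1) = (2 * k - 1) * n + (2 * k - 1) := by ring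
          omega
        · simp [b]
        · simp only [Finset.mem_insert, not_or]
          exact ⟨hab _ _, by simp [a]⟩
      have := ih {y // P y} (Corner e he) ψ' φ' hsurj' (by
          intro g y h1 h2 h3 h4 i i' h5
          rw [hφ'] at h5 ⊢
          exact hord g.1 y.1 (congrArg Subtype.val h1) (congrArg Subtype.val h2)
            (congrArg Subtype.val h3) h4 _ _ h5)
        (hfn.imp id (fun h s => h s.1)) hmin' hcard' p' q'
        (fun h => hab _ _ (congrArg Subtype.val h))
        ⟨e * f (j + 1) * e, by simp only [← mul_assoc, he], by simp only [mul_assoc, he]⟩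
        (by rw [hφ', hres' _ (hfl j) (hfr j), hres2])
      obtain ⟨Nc, -, hNc2, hNc3⟩ := transfer (α := ψ e) (β := ψ e) (loc_of ψ (hff j) (hff j))
        (loc_of ψ he he) (by rw [← map_mul, ← map_mul, hef', he]) (hfn' e)
      refine this.trans ((Set.ncard_le_ncard ?_).trans (hNc2 _))
      show supp (ψ e) (ψ (e * f (j + 1) * e)) ⊆ _
      rw [map_mul, map_mul]
      exact hNc3 _ (loc_of ψ (hfl j) (hfr j))
    have h1 := Finset.sum_le_sum hstep
    rw [Finset.sum_const, Finset.card_range, smul_eq_mul, ← Finset.mul_sum] at h1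
    have h2 := hNb2 W₀
    have h3 : k * k * 2 ^ n ≤ μ * (2 * (μ * (2 * k * (μ * u)))) :=
      h1.trans (Nat.mul_le_mul_left _ (hchain.trans (Nat.mul_le_mul_left _
        (h2.trans (Nat.mul_le_mul_left _ hW₀)))))
    have h4 : k * 2 ^ n ≤ 4 * μ ^ 3 * u := by
      apply Nat.le_of_mul_le_mul_left _ hk1
      calc k * (k * 2 ^ n) = k * k * 2 ^ n := by ring
        _ ≤ _ := h3
        _ = _ := by ring
    have h5 : 4 * μ ^ 3 * 2 ^ (n + 1) ≤ 4 * μ ^ 3 * u := by
      calc 4 * μ ^ 3 * 2 ^ (n + 1) = 8 * μ ^ 3 * 2 ^ n := by ring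
        _ ≤ k * 2 ^ n := Nat.mul_le_mul_right _ hk
        _ ≤ _ := h4
    exact Nat.le_of_mul_le_mul_left h5 (by omega)

/-- The abstract theorem. -/
theorem card_lower [Fintype Q] [Nonempty Q] (k μ : ℕ) (hμ1 : 1 ≤ μ) (hk : 8 * μ ^ 3 ≤ k) (n : ℕ)
    (X : Type) [Fintype X] (S : Type v) [Monoid S] [Finite S] (ψ : S →ₙ* TR Q)
    (φ : S →* BR X) (hsurj : Function.Surjective φ)
    (hord : ∀ e y : S, e * e = e → e * y = y → y * e = y → (∀ p q, ψ e p q → ψ y p q) →
        ∀ i j, φ y i j → φ e i j)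
    (hfn : 2 ≤ μ ∨ ∀ s, Functional (ψ s))
    (hcard : 2 + (2 * k - 1) * n ≤ Fintype.card X) : 2 ^ n ≤ 2 * Fintype.card Q := by
  classical
  obtain ⟨e, he, -, -, φ', hφ', hsurj', hmin', -⟩ := localise φ hsurj (one_mul 1) (fun _ => True)
    (by rw [map_one]; apply BR.ext; intro a b; simp [res, BR.one_apply, Subtype.ext_iff])
  let ψ' : Corner e he →ₙ* TR Q := ⟨fun s => ψ s.1, fun s s' => map_mul ψ s.1 s'.1⟩
  have hc : Fintype.card {_x : X // True} = Fintype.card X := by simp
  obtain ⟨p, q, hpq⟩ : ∃ p q : {_x : X // True}, p ≠ q :=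
    Fintype.exists_pair_of_one_lt_card (by omega)
  obtain ⟨x, hx⟩ := hsurj' (E p q)
  have := supp_lower k μ hμ1 hk n {_x : X // True} (Corner e he) ψ' φ' hsurj' (by
      intro g y h1 h2 h3 h4 i i' h5
      rw [hφ'] at h5 ⊢
      exact hord g.1 y.1 (congrArg Subtype.val h1) (congrArg Subtype.val h2)
        (congrArg Subtype.val h3) h4 _ _ h5)
    (hfn.imp id (fun h s => h s.1)) hmin' (by omega) p q hpq x hx
  exact this.trans (supp_ncard_le _ _)

end Crest.Agent.R294
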