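import Crest.Prelude.Def_TwoWay
import Crest.Agent.R294.Main

/-!
From two-way automata to two-way relations.
-/

set_option autoImplicit false

namespace Crest.Agent.R294

open Relation Crest.TwoWay

universe u

lemma functional_beh {Q : Type*} {xs : List (TR Q)} (h : ∀ x ∈ xs, Functional x) :
    Functional (beh xs) := by
  intro p q q' h1 h2
  have U : Relator.RightUnique (LStep xs) := by
    rintro N N' N'' ⟨b, x, a1, a2, a3, a4⟩ ⟨b', x', b1, b2, b3, b4⟩
    have hb : b = b' := by rw [a2] at b2; split_ifs at b2 <;> omega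
    subst hb
    have hx : x = x' := by rw [a1] at b1; exact Option.some.inj b1
    subst hx
    have := h x (List.mem_of_getElem? a1) _ _ _ a3 b3
    ext1
    · rw [a4, b4, this]
    · exact this
  have T : ∀ q N, ReflTransGen (LStep xs) (exit xs.length q) N → exit xs.length q = N := by
    intro q N hN
    rcases hN.cases_head with h | ⟨c, ⟨b, x, a1, a2, -⟩, -⟩
    · exact h
    · exfalso
      simp only [exit] at a2
      split_ifs at a2
      rw [List.getElem?_eq_none (by omega)] at a1
      cases a1
  rcases ReflTransGen.total_of_right_unique U h1 h2 with h3 | h3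
  · exact congrArg Prod.snd (T _ _ h3)
  · exact (congrArg Prod.snd (T _ _ h3)).symm

lemma le_of_functional {Q : Type*} {e y : TR Q} (hy : Loc e y) (hF : Functional y)
    (h : ∀ p q, e p q → y p q) (p q : Q × Bool) (hpq : y p q) : e p q := by
  have h1 := hpq
  rw [← hy.dl p.2, dmul_iff rfl] at h1
  rcases h1 with ⟨-, h1⟩ | ⟨s, -, -, h1, -⟩
  · exact h1
  · rw [hF _ _ _ hpq (h _ _ h1)]; exact h1

variable {α σ : Type*} (M : TwoWayNFA α σ)

def stayR (a : Cell α) : σ → σ → Prop :=
  ReflTransGen (fun q q' => (q', HeadMove.stay) ∈ M.step q a)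

def canAcc (a : Cell α) (q : σ) : Prop := ∃ q₁, stayR M a q q₁ ∧ q₁ ∈ M.accept

/-- The behaviour of `M` on a single cell; `none` records acceptance. -/
def cell (a : Cell α) : TR (Option σ) := fun s t =>
  (s.1 = none ∧ t = (none, true)) ∨ ∃ q, s.1 = some q ∧
    ((canAcc M a q ∧ t = (none, true)) ∨ (¬ canAcc M a q ∧ ∃ q₁ q₂, stayR M a q q₁ ∧
      t.1 = some q₂ ∧ (q₂, if t.2 then HeadMove.moveRight else HeadMove.moveLeft) ∈ M.step q₁ a))

lemma functional_cell (hM : M.IsDeterministic) (a : Cell α) : Functional (cell M a) := by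
  rintro s t t' (⟨h1, rfl⟩ | ⟨q, h1, h2⟩) (⟨h3, rfl⟩ | ⟨q', h3, h4⟩)
  · rfl
  · rw [h1] at h3; cases h3
  · rw [h1] at h3; cases h3
  have hq : q = q' := by rw [h1] at h3; exact Option.some.inj h3
  subst hq
  rcases h2 with ⟨h2, rfl⟩ | ⟨h2, q₁, q₂, a1, a2, a3⟩ <;>
    rcases h4 with ⟨h4, rfl⟩ | ⟨h4, q₁', q₂', b1, b2, b3⟩
  · rfl
  · exact absurd h2 h4
  · exact absurd h4 h2
  have U : Relator.RightUnique (fun q q' => (q', HeadMove.stay) ∈ M.step q a) := by
    intro q r r' c1 c2
    exact congrArg Prod.fst (hM q a c1 c2)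
  have T : ∀ (q₁ q₂ r : σ) (d : Bool),
      (q₂, if d then HeadMove.moveRight else HeadMove.moveLeft) ∈ M.step q₁ a →
      stayR M a q₁ r → q₁ = r := by
    intro q₁ q₂ r d c1 c2
    rcases c2.cases_head with h | ⟨c, h, -⟩
    · exact h
    · have := congrArg Prod.snd (hM q₁ a c1 h)
      cases d <;> simp at this
  have hq1 : q₁ = q₁' := by
    rcases ReflTransGen.total_of_right_unique U a1 b1 with h | h
    · exact T _ _ _ _ a3 h
    · exact (T _ _ _ _ b3 h).symm
  subst hq1
  have := hM q₁ a a3 b3
  simp only [Prod.mk.injEq] at this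
  ext1
  · rw [a2, b2, this.1]
  · have h5 := this.2
    revert h5
    cases t.2 <;> cases t'.2 <;> simp

def tape (w : List α) : List (Cell α) := Cell.leftEnd :: (w.map Cell.letter ++ [Cell.rightEnd])

lemma tape_get (w : List α) (i : ℕ) (hi : i ≤ w.length + 1) : (tape w)[i]? = some (scan w i) := by
  unfold tape scan
  rcases i with _ | i
  · simp
  · simp only [List.getElem?_cons_succ, Nat.add_sub_cancel, Nat.succ_ne_zero, if_false]
    by_cases h : i < w.length
    · rw [List.getElem?_append_left (by simpa using h)]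
      simp [List.getElem?_eq_getElem h]
    · have : i = w.length := by omega
      subst this
      simp

lemma tape_length (w : List α) : (tape w).length = w.length + 2 := by simp [tape]

lemma accepts_iff (w : List α) :
    M.Accepts w ↔ beh ((tape w).map (cell M)) (some M.start, true) (none, true) := by
  set xs := (tape w).map (cell M) with hxs
  have hlen : xs.length = w.length + 2 := by simp [hxs, tape_length]
  have hget : ∀ i, i ≤ w.length + 1 → xs[i]? = some (cell M (scan w i)) := by
    intro i hi; simp [hxs, tape_get w i hi]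
  unfold beh entry exit
  simp only [if_true, hlen]
  constructor
  · rintro ⟨c, hc, hacc⟩
    let Reach := ReflTransGen (LStep xs) (0, (some M.start, true))
    have fin1 : ∀ m j, j + m = w.length + 2 → Reach (j, (none, true)) →
        Reach (w.length + 2, (none, true)) := by
      intro m
      induction m with
      | zero => intro j hj h; rw [← hj]; exact h
      | succ m ih =>
        intro j hj h
        exact ih (j + 1) (by omega)
          (h.tail ⟨j, _, hget j (by omega), by simp, Or.inl ⟨rfl, rfl⟩, by simp⟩)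
    have fin2 : ∀ (i : ℕ) (q₀ : σ) (d : Bool), i ≤ w.length + 1 →
        Reach (if d then i else i + 1, (some q₀, d)) → canAcc M (scan w i) q₀ →
        Reach (w.length + 2, (none, true)) := by
      intro i q₀ d hi h1 h2
      exact fin1 (w.length + 1 - i) (i + 1) (by omega)
        (h1.tail ⟨i, _, hget i hi, by simp, Or.inr ⟨q₀, rfl, Or.inl ⟨h2, rfl⟩⟩, by simp⟩)
    have key : ∀ c, ReflTransGen (M.Step w) (M.start, 0) c → c.2 ≤ w.length + 1 ∧
        (Reach (w.length + 2, (none, true)) ∨ ∃ (q₀ : σ) (d : Bool),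
          Reach (if d then c.2 else c.2 + 1, (some q₀, d)) ∧ stayR M (scan w c.2) q₀ c.1) := by
      intro c hc
      induction hc with
      | refl => exact ⟨by simp, Or.inr ⟨M.start, true, ReflTransGen.refl, ReflTransGen.refl⟩⟩
      | @tail c c' _ hs ih =>
        obtain ⟨m, h1, h2⟩ := hs
        obtain ⟨hle, ih⟩ := ih
        have hle' : c'.2 ≤ w.length + 1 := by
          cases m <;> simp only [movePos] at h2
          · split_ifs at h2; simp only [Option.some.injEq] at h2; omega
          · simp only [Option.some.injEq] at h2; omega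
          · split_ifs at h2; simp only [Option.some.injEq] at h2; omega
        refine ⟨hle', ?_⟩
        rcases ih with ih | ⟨q₀, d, h3, h4⟩
        · exact Or.inl ih
        by_cases hca : canAcc M (scan w c.2) q₀
        · exact Or.inl (fin2 _ _ _ hle h3 hca)
        right
        cases m <;> simp only [movePos] at h2
        · split_ifs at h2 with h0
          simp only [Option.some.injEq] at h2
          refine ⟨c'.1, false, h3.tail ⟨c.2, _, hget _ hle, by simp,
            Or.inr ⟨q₀, rfl, Or.inr ⟨hca, c.1, c'.1, h4, rfl, by simpa using h1⟩⟩, ?_⟩,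
            ReflTransGen.refl⟩
          simp; omega
        · simp only [Option.some.injEq] at h2
          rw [← h2]
          exact ⟨q₀, d, h3, h4.tail h1⟩
        · split_ifs at h2 with h0
          simp only [Option.some.injEq] at h2
          refine ⟨c'.1, true, h3.tail ⟨c.2, _, hget _ hle, by simp,
            Or.inr ⟨q₀, rfl, Or.inr ⟨hca, c.1, c'.1, h4, rfl, by simpa using h1⟩⟩, ?_⟩,
            ReflTransGen.refl⟩
          simp; omega
    obtain ⟨hle, h | ⟨q₀, d, h1, h2⟩⟩ := key c hc
    · exact h
    · exact fin2 _ _ _ hle h1 ⟨c.1, h2, hacc⟩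
  · intro h
    have hstay : ∀ b q q₁, stayR M (scan w b) q q₁ → ReflTransGen (M.Step w) (q, b) (q₁, b) := by
      intro b q q₁ h
      induction h with
      | refl => exact ReflTransGen.refl
      | tail _ h2 ih => exact ih.tail ⟨HeadMove.stay, h2, rfl⟩
    have key : ∀ N, ReflTransGen (LStep xs) (0, (some M.start, true)) N →
        (N.2.1 = none → M.Accepts w) ∧ ∀ q b, N.2.1 = some q →
          N.1 = (if N.2.2 then b else b + 1) → b ≤ w.length + 1 →
          ReflTransGen (M.Step w) (M.start, 0) (q, b) := by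
      intro N hN
      induction hN with
      | refl =>
        refine ⟨by simp, fun q b h1 h2 _ => ?_⟩
        simp only [Option.some.injEq, if_true] at h1 h2
        rw [← h1, ← h2]
      | @tail N N' _ hs ih =>
        obtain ⟨b, x, a1, a2, a3, a4⟩ := hs
        have hb : b ≤ w.length + 1 := by
          by_contra hh
          rw [List.getElem?_eq_none (by omega)] at a1
          cases a1
        rw [hget b hb] at a1
        obtain rfl := Option.some.inj a1
        rcases a3 with ⟨h1, h2⟩ | ⟨q, h1, ⟨⟨q₁, h2, h3⟩, h4⟩ | ⟨-, q₁, q₂, h2, h3, h4⟩⟩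
        · exact ⟨fun _ => ih.1 h1, fun q b h => by rw [h2] at h; cases h⟩
        · exact ⟨fun _ => ⟨(q₁, b), (ih.2 q b h1 a2 hb).trans (hstay _ _ _ h2), h3⟩,
            fun q b h => by rw [h4] at h; cases h⟩
        · refine ⟨fun h => (by rw [h3] at h; cases h), fun q' b' c1 c2 c3 => ?_⟩
          rw [h3] at c1
          obtain rfl := Option.some.inj c1
          refine ((ih.2 q b h1 a2 hb).trans (hstay _ _ _ h2)).tail ⟨_, h4, ?_⟩
          rw [a4] at c2
          cases hd : N'.2.2 <;> simp only [hd, if_true, Bool.false_eq_true, if_false] at c2 ⊢ <;>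
            simp only [movePos]
          · rw [if_neg (by omega)]; congr 1; omega
          · rw [if_neg (by omega)]; congr 1
    exact (key _ h).1 rfl

/-- Behaviour of a word. -/
def wb (w : List α) : TR (Option σ) := (w.map (fun a => cell M (Cell.letter a))).prod

lemma wb_append (u v : List α) : wb M (u ++ v) = wb M u * wb M v := by simp [wb]

lemma accepts_mono {u v : List α} (h : ∀ p q, wb M u p q → wb M v p q) (x y : List α)
    (hu : M.Accepts (x ++ u ++ y)) : M.Accepts (x ++ v ++ y) := by
  have key : ∀ w, beh ((tape w).map (cell M)) =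
      cell M Cell.leftEnd * (wb M w * cell M Cell.rightEnd) := by
    intro w
    rw [beh_eq_prod]
    simp [tape, wb, Function.comp_def]
  rw [accepts_iff, key, wb_append, wb_append] at hu ⊢
  refine mul_mono (fun _ _ h => h) (mul_mono (mul_mono (mul_mono (fun _ _ h => h) h)
    (fun _ _ h => h)) (fun _ _ h => h)) _ _ hu

lemma functional_wb (hM : M.IsDeterministic) (w : List α) : Functional (wb M w) := by
  unfold wb
  rw [← beh_eq_prod]
  apply functional_beh
  intro x hx
  obtain ⟨a, -, rfl⟩ := List.mem_map.1 hx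
  exact functional_cell M hM _

/-- The composite relation of a word. -/
def wr {h : ℕ} (w : List (Fin h → Fin h → Bool)) : BR (Fin h) := wordRel w

lemma wr_append {h : ℕ} (u v : List (Fin h → Fin h → Bool)) : wr (u ++ v) = wr u * wr v := by
  induction u with
  | nil => exact (one_mul _).symm
  | cons R u ih =>
    have : ∀ w, wr (R :: w) = (show BR (Fin h) from fun a b => R a b = true) * wr w := fun w => rfl
    rw [List.cons_append, this, this, ih, mul_assoc]

lemma live_iff {h : ℕ} (w : List (Fin h → Fin h → Bool)) (i j : Fin h) :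
    ([fun a b => decide (a = i ∧ b = i)] ++ w ++ [fun a b => decide (a = j ∧ b = j)]) ∈ liveness h
      ↔ wr w i j := by
  show (∃ a b, wr _ a b) ↔ _
  rw [wr_append, wr_append]
  simp only [BR.mul_apply, wr, wordRel, decide_eq_true_eq]
  constructor
  · rintro ⟨a, b, c, ⟨d, ⟨_, ⟨-, rfl⟩, rfl⟩, h⟩, _, ⟨rfl, -⟩, -⟩
    exact h
  · intro h
    exact ⟨i, j, j, ⟨i, ⟨i, ⟨rfl, rfl⟩, rfl⟩, h⟩, j, ⟨rfl, rfl⟩, rfl⟩

theorem automaton_lower {h : ℕ} {σ : Type u} [Fintype σ]
    (M : TwoWayNFA (Fin h → Fin h → Bool) σ) (k μ n : ℕ) (hμ1 : 1 ≤ μ) (hk : 8 * μ ^ 3 ≤ k)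
    (hcard : 2 + (2 * k - 1) * n ≤ h)
    (hM : (2 ≤ μ ∧ M.language = (liveness h)ᶜ) ∨ (M.IsDeterministic ∧ M.language = liveness h)) :
    2 ^ n ≤ 2 * (Fintype.card σ + 1) := by
  classical
  let S : Submonoid (TR (Option σ) × BR (Fin h)) :=
    { carrier := {s | ∃ w, s = (wb M w, wr w)}
      one_mem' := ⟨[], rfl⟩
      mul_mem' := by
        rintro _ _ ⟨u, rfl⟩ ⟨v, rfl⟩
        exact ⟨u ++ v, by rw [wb_append, wr_append]; rfl⟩ }
  let ψ : S →ₙ* TR (Option σ) := ⟨fun s => s.1.1, fun _ _ => rfl⟩
  let φ : S →* BR (Fin h) := ⟨⟨fun s => s.1.2, rfl⟩, fun _ _ => rfl⟩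
  have := card_lower k μ hμ1 hk n (Fin h) S ψ φ ?_ ?_ ?_ (by simpa using hcard)
  · simpa using this
  · intro r
    refine ⟨⟨_, [fun a b => decide (r a b)], rfl⟩, ?_⟩
    apply BR.ext
    intro a b
    simp [φ, wr, wordRel]
  · rintro ⟨_, u, rfl⟩ ⟨_, v, rfl⟩ - h1 h2 h3 i j h4
    change wr v i j at h4
    change wr u i j
    change ∀ p q, wb M u p q → wb M v p q at h3
    rw [← live_iff] at h4 ⊢
    rcases hM with ⟨-, hM⟩ | ⟨hD, hM⟩
    · by_contra hh
      have h5 : [fun a b => decide (a = i ∧ b = i)] ++ u ++ [fun a b => decide (a = j ∧ b = j)]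
          ∈ M.language := by rw [hM]; exact hh
      have h6 : _ ∈ M.language := accepts_mono M h3 _ _ h5
      rw [hM] at h6
      exact h6 h4
    · rw [← hM] at h4 ⊢
      exact accepts_mono M (le_of_functional (loc_of ψ h1 h2) (functional_wb M hD v) h3) _ _ h4
  · rcases hM with ⟨hM, -⟩ | ⟨hD, -⟩
    · exact Or.inl hM
    · right
      rintro ⟨_, u, rfl⟩
      exact functional_wb M hD u

/-- The guessing automaton on `N ≥ h + 2` states. -/
def guess (h N : ℕ) (hN : h + 2 ≤ N) : TwoWayNFA (Fin h → Fin h → Bool) (Fin N) where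
  start := ⟨h, by omega⟩
  accept := {q | q.1 = h + 1}
  step q c := match c with
    | Cell.leftEnd => {p | q.1 = h ∧ p.1.1 < h ∧ p.2 = HeadMove.moveRight}
    | Cell.letter R => {p | ∃ i j : Fin h, q.1 = i.1 ∧ p.1.1 = j.1 ∧ R i j = true ∧
        p.2 = HeadMove.moveRight}
    | Cell.rightEnd => {p | q.1 < h ∧ p.1.1 = h + 1 ∧ p.2 = HeadMove.stay}

lemma guess_noLeft (h N : ℕ) (hN : h + 2 ≤ N) : (guess h N hN).NoLeftMoves := by
  intro q a p hp
  cases a <;> simp only [guess, Set.mem_ofPred_eq] at hp
  · rw [hp.2.2]; simp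
  · obtain ⟨_, _, -, -, -, hp⟩ := hp; rw [hp]; simp
  · rw [hp.2.2]; simp

lemma scan_lt (w : List α) (i : ℕ) (hi : i < w.length) : scan w (i + 1) = Cell.letter w[i] := by
  simp [scan, List.getElem?_eq_getElem hi]

lemma scan_ge (w : List α) (i : ℕ) (hi : w.length ≤ i) : scan w (i + 1) = Cell.rightEnd := by
  simp [scan, List.getElem?_eq_none hi]

lemma wr_take_succ {h : ℕ} (w : List (Fin h → Fin h → Bool)) (i : ℕ) (hi : i < w.length)
    (a c : Fin h) : wr (w.take (i + 1)) a c ↔ ∃ b, wr (w.take i) a b ∧ w[i] b c = true := by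
  rw [List.take_add_one, wr_append, BR.mul_apply]
  simp [List.getElem?_eq_getElem hi, wr, wordRel]

lemma guess_language (h N : ℕ) (hN : h + 2 ≤ N) : (guess h N hN).language = liveness h := by
  ext w
  constructor
  · rintro ⟨c, hc, hacc⟩
    have key : ∀ c, ReflTransGen ((guess h N hN).Step w) ((guess h N hN).start, 0) c →
        (c.1.1 = h ∧ c.2 = 0) ∨ (∃ (a b : Fin h) (i : ℕ), c.1.1 = b.1 ∧ c.2 = i + 1 ∧
          wr (w.take i) a b) ∨ (c.1.1 = h + 1 ∧ w ∈ liveness h) := by
      intro c hc
      induction hc with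
      | refl => left; exact ⟨rfl, rfl⟩
      | @tail c c' _ hs ih =>
        obtain ⟨m, h1, h2⟩ := hs
        rcases ih with ⟨a1, a2⟩ | ⟨a, b, i, a1, a2, a3⟩ | ⟨a1, a2⟩
        · rw [a2] at h1 h2
          obtain ⟨-, b1, b2⟩ := h1
          simp only at b1 b2
          subst b2
          right; left
          refine ⟨⟨_, b1⟩, ⟨_, b1⟩, 0, rfl, ?_, rfl⟩
          simp [movePos] at h2
          omega
        · rw [a2] at h1 h2
          by_cases hi : i < w.length
          · rw [scan_lt w i hi] at h1
            obtain ⟨i', j', b1, b2, b3, b4⟩ := h1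
            simp only at b2 b4
            subst b4
            right; left
            refine ⟨a, j', i + 1, b2, ?_, (wr_take_succ w i hi a j').2 ⟨b, a3, ?_⟩⟩
            · simp [movePos] at h2
              omega
            · have : b = i' := Fin.ext (by omega)
              rw [this]; exact b3
          · rw [scan_ge w i (by omega)] at h1
            right; right
            refine ⟨h1.2.1, a, b, ?_⟩
            rw [List.take_of_length_le (by omega)] at a3
            exact a3
        · exfalso
          revert h1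
          cases scan w c.2 <;> simp only [guess, Set.mem_ofPred_eq]
          · omega
          · rintro ⟨i, j, b1, -⟩; omega
          · omega
    have hacc' : c.1.1 = h + 1 := hacc
    rcases key c hc with ⟨a1, a2⟩ | ⟨a, b, i, a1, a2, a3⟩ | ⟨a1, a2⟩
    · omega
    · omega
    · exact a2
  · rintro ⟨a, b, hab⟩
    have key : ∀ i, i ≤ w.length → ∀ b : Fin h, wr (w.take i) a b →
        ReflTransGen ((guess h N hN).Step w) ((guess h N hN).start, 0)
          (⟨b.1, by omega⟩, i + 1) := by
      intro i
      induction i with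
      | zero =>
        intro _ b _
        exact ReflTransGen.single ⟨HeadMove.moveRight, ⟨rfl, b.2, rfl⟩, by simp [movePos]⟩
      | succ i ih =>
        intro hi c hc
        obtain ⟨b, h1, h2⟩ := (wr_take_succ w i hi a c).1 hc
        refine (ih (by omega) b h1).tail ⟨HeadMove.moveRight, ?_, ?_⟩
        · simp only [scan_lt w i hi]
          exact ⟨b, c, rfl, rfl, h2, rfl⟩
        · simp only [movePos]
          rw [if_neg (by omega)]
    refine ⟨(⟨h + 1, by omega⟩, w.length + 1), (key w.length le_rfl b (by rw [List.take_length]; exact hab)).tail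
      ⟨HeadMove.stay, ?_, rfl⟩, rfl⟩
    simp only [scan_ge w w.length le_rfl]
    exact ⟨b.2, rfl, rfl⟩

end Crest.Agent.R294
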