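import Crest.Agent.R294.Classes

/-!
Supports along a descending chain of idempotents.
-/

set_option autoImplicit false

namespace Crest.Agent.R294

open Relation

variable {Q : Type*}

/-- Crossing `e`, bouncing in `f` and crossing `f` is bouncing in `f` and crossing `f`. -/
lemma cross_bounce_cross {e f : TR Q} (_hf : Loc f f) (hef : Loc e f) {q v : Q × Bool}
    (hv : v.2 = q.2) (hvq : f v q) {t : Q × Bool} (ht : bnc f t v) :
    ∀ s r, s.2 = q.2 → r.2 = q.2 → e s r → midD q.2 e f r t →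
      ∃ w, bnc f s w ∧ w.2 = q.2 ∧ f w q := by
  induction ht using ReflTransGen.head_induction_on with
  | refl =>
    intro s r hs hr hsr hm
    refine ⟨s, ReflTransGen.refl, hs, ?_⟩
    rw [← hef.dl q.2, dmul_iff hs]
    exact Or.inr ⟨r, v, hr, hsr, hm, hv, by simpa [hv] using hvq⟩
  | @head t t' h1 _ ih =>
    intro s r hs hr hsr hm
    obtain ⟨h1, h2⟩ := h1
    by_cases hd : t.2 = q.2
    · exact ih s r hs hr hsr (hm.tail ⟨h1, by simpa [hd] using h2⟩)
    · have hd' : t'.2 = q.2 := by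
        revert h1 hd; cases t.2 <;> cases t'.2 <;> cases q.2 <;> simp
      rw [← hef.dl t.2, dmul_iff rfl] at h2
      rcases h2 with ⟨-, h2⟩ | ⟨r', s', a1, a2, a3, a4, a5⟩
      · exact ih s r hs hr hsr (hm.tail ⟨h1, by simpa [hd] using h2⟩)
      · have b1 : s'.2 ≠ t.2 := by rw [a4]; exact h1.symm
        simp only [b1, if_false] at a5
        have b2 : f s r' := by
          rw [← hef.dl q.2, dmul_iff hs]
          exact Or.inr ⟨r, t, hr, hsr, hm, a1.symm, by simpa [hd] using a2⟩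
        have b3 : bnc f s s' :=
          ReflTransGen.head ⟨by rw [hs, a1]; exact fun h => hd h.symm, b2⟩
            (bnc_of_midD (fun _ _ h1 h2 => hef.bounce h1 h2) (fun _ _ _ h => h) _ a3)
        obtain ⟨w, c1, c2, c3⟩ := ih s' t' (a4.trans hd') hd' a5 ReflTransGen.refl
        exact ⟨w, b3.trans c1, c2, c3⟩

/-- `hat f f ; hat e f ; hat f f ⊆ hat f f`. -/
lemma hat_sandwich {e f : TR Q} (hf : Loc f f) (hef : Loc e f) {a b c d : Q × Bool}
    (h1 : hat f f a b) (h2 : hat e f b c) (h3 : hat f f c d) : hat f f a d := by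
  obtain ⟨a1, r, a2, a3, a4⟩ := h2
  obtain ⟨b1, q, b2, b3, b4⟩ := h3
  obtain ⟨w, c1, c2, c3⟩ := cross_bounce_cross hf hef b2.symm b3 a4 b r
    (by rw [b2, a1]) (by rw [b2, a1, a2]) a3 ReflTransGen.refl
  obtain ⟨d1, s, d2, d3, d4⟩ := h1
  have hq : q.2 = a.2 := by rw [b2, a1, d1]
  have : hat f f a w := ⟨c2.trans hq, s, d2, d3, d4.trans c1⟩
  exact ⟨by rw [b1, a1, d1], q, hq, hat_left hf hf this c3 c2.symm, b4⟩

/-- Classes of `e` containing no point of `I`. -/
def mort (e : TR Q) (I : Set (Q × Bool)) : Set (Set (Q × Bool)) :=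
  {C | ∃ k, hat e e k k ∧ (∀ l ∈ I, l ∉ cls e k) ∧ C = cls e k}

lemma mort_step [Finite Q] [hQ : Nonempty Q] {e f : TR Q} (he : Loc e e) (hf : Loc f f)
    (hef : Loc e f) {I : Set (Q × Bool)} (hI : ∀ l ∈ I, hat f e l l) :
    2 * (mort f I).ncard + (supp e f).ncard ≤ 2 * (mort e I).ncard := by
  have surv : ∀ k l, hat f e k k → l ∈ cls e k → hat f e l l ∧ l ∈ cls f k := by
    intro k l hk hl
    exact ⟨hat_hat_right he hef (hat_hat_left he hef hl.2 hk) hl.1,
      hef.hat_mono (hat_hat_right he hef hk hl.1), hef.hat_mono (hat_hat_left he hef hl.2 hk)⟩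
  have hKM : supp e f ⊆ mort e I := by
    rintro C ⟨k, h1, h2, rfl⟩
    refine ⟨k, h1, fun l hl hlk => h2 ?_, rfl⟩
    exact (surv l k (hI l hl) ⟨hlk.2, hlk.1⟩).1
  let Old : Set (Set (Q × Bool)) :=
    {C | C ∈ mort f I ∧ ∃ k' ∈ C, hat e e k' k' ∧ hat f e k' k'}
  let Born : Set (Set (Q × Bool)) :=
    {C | ∃ k, hat f f k k ∧ C = cls f k ∧ ∀ k' ∈ C, hat e e k' k' → ¬ hat f e k' k'}
  have hsplit : mort f I ⊆ Old ∪ Born := by
    intro C hC
    by_cases h : ∃ k' ∈ C, hat e e k' k' ∧ hat f e k' k'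
    · exact Or.inl ⟨hC, h⟩
    · obtain ⟨k, h1, -, h3⟩ := hC
      exact Or.inr ⟨k, h1, h3, fun k' hk' a b => h ⟨k', hk', a, b⟩⟩
  have hOld : Old.ncard ≤ (mort e I \ supp e f).ncard := by
    let G : Set (Q × Bool) → Set (Q × Bool) := fun C => {l | ∃ k ∈ C, l ∈ cls f k}
    refine le_trans (Set.ncard_le_ncard ?_) (Set.ncard_image_le (f := G))
    rintro C ⟨⟨k, h1, h2, rfl⟩, k', hk', h3, h4⟩
    have hcl : cls f k = cls f k' := cls_eq hf hk'.1 hk'.2
    refine ⟨cls e k', ⟨⟨k', h3, fun l hl hlk => h2 l hl ?_, rfl⟩, ?_⟩, ?_⟩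
    · rw [hcl]; exact (surv k' l h4 hlk).2
    · rintro ⟨k'', a1, a2, a3⟩
      apply a2
      have : k'' ∈ cls e k' := by rw [a3]; exact ⟨a1, a1⟩
      exact (surv k' k'' h4 this).1
    · ext l
      constructor
      · rintro ⟨m, hm, hl⟩
        have := (surv k' m h4 hm).2
        rwa [hcl, cls_eq hf this.1 this.2]
      · intro hl
        exact ⟨k', ⟨h3, h3⟩, by rwa [← hcl]⟩
  have hBorn : 2 * Born.ncard ≤ (supp e f).ncard := by
    have hch : ∀ C : Set (Q × Bool), ∃ z : (Q × Bool) × (Q × Bool) × (Q × Bool), C ∈ Born →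
        hat f f z.1 z.1 ∧ C = cls f z.1 ∧ hat e e z.1 z.2.1 ∧ hat f e z.2.1 z.2.2 ∧
          hat e f z.2.2 z.1 ∧ hat e e z.2.1 z.2.1 ∧ hat e e z.2.2 z.2.2 ∧
          ¬ hat f e z.2.1 z.2.1 ∧ ¬ hat f e z.2.2 z.2.2 := by
      intro C
      by_cases hC : C ∈ Born
      · obtain ⟨k, hk, rfl, h2⟩ := hC
        obtain ⟨-, p, a1, a2, a3⟩ := id hk
        obtain ⟨k₁, b1, b2, b3⟩ := factor_left he hef a2 a1
        obtain ⟨k₂, c1, c2, c3⟩ := factor_right he hef b3 (a1.trans b2.1.symm)
        have d1 : k₂.2 = k.2 := c2.1.trans b2.1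
        have d2 : hat e f k₂ k := ⟨d1.symm, p, a1.trans d1.symm, c3, a3⟩
        refine ⟨(k, k₁, k₂), fun _ => ⟨hk, rfl, b2, c2, d2, b1, c1, fun h => ?_, fun h => ?_⟩⟩
        · refine h2 k₁ ⟨hef.hat_mono (hat_hat_left he hef b2 h), ?_⟩ b1 h
          exact ⟨b2.1.symm, p, a1.trans b2.1.symm, b3, a3⟩
        · refine h2 k₂ ⟨hef.hat_mono (hat_hat_left he hef b2 c2), ?_⟩ c1 h
          exact ⟨d1.symm, p, a1.trans d1.symm, hat_right he hef h c3 (a1.trans d1.symm), a3⟩
      · obtain ⟨q⟩ := hQ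
        exact ⟨((q, true), (q, true), (q, true)), fun h => absurd h hC⟩
    choose F hF using hch
    -- composing `hat f e` with `hat e f`
    have fe_ef : ∀ a b c, hat f e a b → hat e f b c → hat f f a c := by
      rintro a b c h1 ⟨x1, s, x2, x3, x4⟩
      exact ⟨x1.trans h1.1, s, x2.trans h1.1, hat_right he hef h1 x3 x2, x4⟩
    have ee_ef : ∀ a b c, hat e e a b → hat e f b c → hat e f a c := by
      intro a b c h1 h2
      exact hat_hat_left he he h1 h2
    have link : ∀ C ∈ Born, ∀ C' ∈ Born, ∀ (b b' : Bool),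
        hat e e (if b then (F C).2.1 else (F C).2.2) (if b' then (F C').2.1 else (F C').2.2) →
        hat f f (F C).1 (F C').1 := by
      intro C hC C' hC' b b' h
      obtain ⟨x0, -, x1, x2, x3, -⟩ := hF C hC
      obtain ⟨y0, -, y1, y2, y3, -⟩ := hF C' hC'
      cases b <;> cases b' <;> simp only [if_true, Bool.false_eq_true, if_false] at h
      · exact fe_ef _ _ _ (hat_hat_right he hef (hat_hat_left he hef x1 x2) h) y3
      · refine hat_hat_left hf hf (hef.hat_mono (hat_hat_right he hef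
          (hat_hat_left he hef x1 x2) h)) (fe_ef _ _ _ y2 y3)
      · exact hat_sandwich hf hef x0 (ee_ef _ _ _ (hat_hat_left he he x1 h) y3) y0
      · exact fe_ef _ _ _ (hat_hat_left he hef (hat_hat_left he he x1 h) y2) y3
    calc 2 * Born.ncard = (Born ×ˢ (Set.univ : Set Bool)).ncard := by
          rw [Set.ncard_prod]; simp [mul_comm]
      _ ≤ (supp e f).ncard := by
          refine Set.ncard_le_ncard_of_injOn
            (fun z => cls e (if z.2 then (F z.1).2.1 else (F z.1).2.2)) ?_ ?_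
          · rintro ⟨C, b⟩ ⟨hC, -⟩
            obtain ⟨-, -, -, -, -, x1, x2, x3, x4⟩ := hF C hC
            cases b
            · exact ⟨_, x2, x4, rfl⟩
            · exact ⟨_, x1, x3, rfl⟩
          · rintro ⟨C, b⟩ ⟨hC, -⟩ ⟨C', b'⟩ ⟨hC', -⟩ hh
            have hl : hat e e (if b' then (F C').2.1 else (F C').2.2)
                (if b' then (F C').2.1 else (F C').2.2) := by
              obtain ⟨-, -, -, -, -, x1, x2, -⟩ := hF C' hC'
              cases b'
              exacts [x2, x1]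
            obtain ⟨z1, z2⟩ := hat_of_cls_eq hl hh
            have hCC : C = C' := by
              rw [(hF C hC).2.1, (hF C' hC').2.1]
              exact cls_eq hf (link C hC C' hC' b b' z1) (link C' hC' C hC b' b z2)
            subst hCC
            obtain ⟨-, -, -, x2, -, -, -, x3, -⟩ := hF C hC
            cases b <;> cases b' <;> simp only [if_true, Bool.false_eq_true, if_false] at z1 z2
            · rfl
            · exact absurd (hat_hat_right he hef x2 z1) x3
            · exact absurd (hat_hat_right he hef x2 z2) x3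
            · rfl
  have h1 : (mort f I).ncard ≤ Old.ncard + Born.ncard :=
    (Set.ncard_le_ncard hsplit).trans (Set.ncard_union_le _ _)
  have h2 : (mort e I \ supp e f).ncard + (supp e f).ncard = (mort e I).ncard :=
    Set.ncard_sdiff_add_ncard_of_subset hKM
  omega

lemma chain_bound [Finite Q] [Nonempty Q] (f : ℕ → TR Q) (N : ℕ) (hf : ∀ j, Loc (f j) (f j))
    (hff : ∀ j, Loc (f j) (f (j + 1))) (W : Set (Set (Q × Bool)))
    (hW : ∀ j, supp (f 0) (f j) ⊆ W) :
    ∑ j ∈ Finset.range N, (supp (f j) (f (j + 1))).ncard ≤ 2 * W.ncard := by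
  let I : Set (Q × Bool) := {k | hat (f 0) (f 0) k k ∧ cls (f 0) k ∉ W}
  have h0 : ∀ j, Loc (f 0) (f j) := by
    intro j
    induction j with
    | zero => exact hf 0
    | succ j ih => exact ih.trans (hff j)
  have hI : ∀ j, ∀ l ∈ I, hat (f (j + 1)) (f j) l l := by
    intro j l hl
    refine (h0 j).hat_mono ?_
    by_contra hh
    exact hl.2 (hW (j + 1) ⟨l, hl.1, hh, rfl⟩)
  have key : ∀ N, 2 * (mort (f N) I).ncard +
      ∑ j ∈ Finset.range N, (supp (f j) (f (j + 1))).ncard ≤ 2 * (mort (f 0) I).ncard := by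
    intro N
    induction N with
    | zero => simp
    | succ N ih =>
      have := mort_step (hf N) (hf (N + 1)) (hff N) (hI N)
      rw [Finset.sum_range_succ]; omega
  have h1 : mort (f 0) I ⊆ W := by
    rintro C ⟨k, h1, h2, rfl⟩
    by_contra hh
    exact h2 k ⟨h1, hh⟩ ⟨h1, h1⟩
  have h2 := Set.ncard_le_ncard h1
  have := key N
  omega

end Crest.Agent.R294
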