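import Crest.Agent.R294.TwoRel

/-!
Classes and supports relative to an idempotent two-way relation.
-/

set_option autoImplicit false

namespace Crest.Agent.R294

open Relation

variable {Q : Type*}

/-- The product in which an entry point of direction `d` meets `x` first. -/
def dmul (d : Bool) (x y : TR Q) : TR Q := if d then x * y else y * x

def midD (d : Bool) (x y : TR Q) : Q × Bool → Q × Bool → Prop :=
  ReflTransGen (fun s t => s.2 ≠ t.2 ∧ (if s.2 = d then y else x) s t)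

lemma dmul_iff {d : Bool} {x y : TR Q} {p q : Q × Bool} (hp : p.2 = d) :
    dmul d x y p q ↔ (q.2 ≠ d ∧ x p q) ∨ ∃ s t, s.2 = d ∧ x p s ∧ midD d x y s t ∧ t.2 = q.2 ∧
      (if t.2 = d then y else x) t q := by
  cases d
  · have h1 : ∀ s : Q × Bool, (if s.2 = false then y else x) = (if s.2 then x else y) := by
      intro s; cases s.2 <;> simp
    have h2 : midD false x y = mid y x := by
      unfold midD mid; simp only [h1]
    simp only [dmul, mul_def, comp, hp, h1, h2, Bool.false_eq_true, if_false, ne_comm]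
  · have h2 : midD true x y = mid x y := rfl
    simp only [dmul, mul_def, comp, hp, h2, if_true, ne_comm]

/-- `y` lies in the local monoid of `e`. -/
def Loc (e y : TR Q) : Prop := e * y = y ∧ y * e = y

lemma Loc.dl {e y : TR Q} (h : Loc e y) (d : Bool) : dmul d e y = y := by
  cases d <;> simp [dmul, h.1, h.2]

lemma Loc.dr {e y : TR Q} (h : Loc e y) (d : Bool) : dmul d y e = y := by
  cases d <;> simp [dmul, h.1, h.2]

lemma Loc.mul {e y z : TR Q} (h : Loc e y) (h' : Loc e z) : Loc e (y * z) :=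
  ⟨by rw [← mul_assoc, h.1], by rw [mul_assoc, h'.2]⟩

lemma Loc.trans {e f y : TR Q} (h : Loc e f) (h' : Loc f y) : Loc e y :=
  ⟨by rw [← h'.1, ← mul_assoc, h.1], by rw [← h'.2, mul_assoc, h.2]⟩

/-- Closure of the bounces of `e`. -/
def bnc (e : TR Q) : Q × Bool → Q × Bool → Prop :=
  ReflTransGen (fun s t => s.2 ≠ t.2 ∧ e s t)

/-- Cross `y`, then bounce in `e`, ending in the same direction. -/
def hat (y e : TR Q) (p q : Q × Bool) : Prop :=
  q.2 = p.2 ∧ ∃ s, s.2 = p.2 ∧ y p s ∧ bnc e s q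

lemma Loc.bounce {e y : TR Q} (h : Loc e y) {p q : Q × Bool} (hd : p.2 ≠ q.2) (he : e p q) :
    y p q := by
  rw [← h.dl p.2, dmul_iff rfl]
  exact Or.inl ⟨hd.symm, he⟩

lemma Loc.bnc_mono {e y : TR Q} (h : Loc e y) {p q : Q × Bool} (hb : bnc e p q) : bnc y p q :=
  rtg_mono (fun _ _ hh => ⟨hh.1, h.bounce hh.1 hh.2⟩) hb

lemma Loc.hat_mono {e f y : TR Q} (h : Loc e f) {p q : Q × Bool} (hb : hat y e p q) :
    hat y f p q := by
  obtain ⟨h1, s, h2, h3, h4⟩ := hb
  exact ⟨h1, s, h2, h3, h.bnc_mono h4⟩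

lemma midD_of_bnc {e x y : TR Q} (hx : Loc e x) (hy : Loc e y) (d : Bool) {s t : Q × Bool}
    (h : bnc e s t) : midD d x y s t := by
  refine rtg_mono (fun a b hh => ⟨hh.1, ?_⟩) h
  split_ifs
  exacts [hy.bounce hh.1 hh.2, hx.bounce hh.1 hh.2]

lemma bnc_of_midD {f x y : TR Q} (hx : ∀ p q, p.2 ≠ q.2 → x p q → f p q)
    (hy : ∀ p q, p.2 ≠ q.2 → y p q → f p q) (d : Bool) {s t : Q × Bool}
    (h : midD d x y s t) : bnc f s t := by
  refine rtg_mono (fun a b hh => ⟨hh.1, ?_⟩) h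
  obtain ⟨h1, h2⟩ := hh
  split_ifs at h2
  exacts [hy _ _ h1 h2, hx _ _ h1 h2]

lemma lax {e x y : TR Q} (hx : Loc e x) (hy : Loc e y) {p t q : Q × Bool}
    (h1 : hat x e p t) (h2 : y t q) (h3 : q.2 = t.2) : dmul p.2 x y p q := by
  obtain ⟨a, s, b, c, d⟩ := h1
  rw [dmul_iff rfl]
  exact Or.inr ⟨s, t, b, c, midD_of_bnc hx hy _ d, h3.symm, by simpa [a] using h2⟩

lemma hat_left {e y : TR Q} (he : Loc e e) (hy : Loc e y) {p t q : Q × Bool}
    (h1 : hat e e p t) (h2 : y t q) (h3 : q.2 = t.2) : y p q := by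
  have := lax he hy h1 h2 h3
  rwa [hy.dl] at this

lemma hat_right {e y : TR Q} (he : Loc e e) (hy : Loc e y) {p t q : Q × Bool}
    (h1 : hat y e p t) (h2 : e t q) (h3 : q.2 = t.2) : y p q := by
  have := lax hy he h1 h2 h3
  rwa [hy.dr] at this

lemma hat_hat_left {e y g : TR Q} (he : Loc e e) (hy : Loc e y) {p t q : Q × Bool}
    (h1 : hat e e p t) (h2 : hat y g t q) : hat y g p q := by
  obtain ⟨a, s, b, c, d⟩ := h2
  exact ⟨a.trans h1.1, s, b.trans h1.1, hat_left he hy h1 c b, d⟩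

lemma hat_hat_right {e y : TR Q} (he : Loc e e) (hy : Loc e y) {p t q : Q × Bool}
    (h1 : hat y e p t) (h2 : hat e e t q) : hat y e p q := by
  obtain ⟨a, s, b, c, d⟩ := h2
  exact ⟨a.trans h1.1, s, b.trans h1.1, hat_right he hy h1 c b, d⟩

lemma exists_loop {α : Type*} [Finite α] {r : α → α → Prop}
    (htr : ∀ a b c, r a b → r b c → r a c) (S : Set α) (hS : ∀ a ∈ S, ∃ b ∈ S, r a b)
    (hne : S.Nonempty) : ∃ a ∈ S, r a a := by
  have hwf : WellFounded (fun b a => r a b ∧ ¬ r b a) := by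
    have : IsTrans α (fun b a => r a b ∧ ¬ r b a) :=
      ⟨fun a b c h1 h2 => ⟨htr _ _ _ h2.1 h1.1, fun h => h1.2 (htr _ _ _ h h2.1)⟩⟩
    have : Std.Irrefl (fun b a : α => r a b ∧ ¬ r b a) := ⟨fun a h => h.2 h.1⟩
    exact Finite.wellFounded_of_trans_of_irrefl _
  obtain ⟨a, ha, hmin⟩ := hwf.has_min S hne
  obtain ⟨b, hb, hab⟩ := hS a ha
  refine ⟨a, ha, ?_⟩
  by_contra hh
  exact hmin b hb ⟨hab, fun hba => hh (htr _ _ _ hab hba)⟩

lemma factor_left [Finite Q] {e y : TR Q} (he : Loc e e) (hy : Loc e y) {p q : Q × Bool}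
    (h : y p q) (hd : q.2 = p.2) : ∃ k, hat e e k k ∧ hat e e p k ∧ y k q := by
  have step : ∀ p, y p q → q.2 = p.2 → ∃ s, hat e e p s ∧ y s q := by
    intro p h hd
    rw [← hy.dl p.2, dmul_iff rfl] at h
    rcases h with ⟨h1, -⟩ | ⟨s₀, t, h1, h2, h3, h4, h5⟩
    · exact absurd hd h1
    rw [← he.dl p.2, dmul_iff rfl] at h2
    rcases h2 with ⟨h6, -⟩ | ⟨s₁, t₁, h6, h7, h8, h9, h10⟩
    · exact absurd h1 h6
    refine ⟨t₁, ⟨h9.trans h1, s₁, h6, h7, bnc_of_midD (fun _ _ _ h => h) (fun _ _ _ h => h) _ h8⟩,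
      ?_⟩
    rw [← hy.dl p.2, dmul_iff (h9.trans h1)]
    exact Or.inr ⟨s₀, t, h1, by simpa using h10, h3, h4, h5⟩
  obtain ⟨k, hk, hkk⟩ := exists_loop (r := hat e e) (fun a b c => hat_hat_left he he)
    {s | hat e e p s ∧ y s q} (by
      rintro a ⟨h1, h2⟩
      obtain ⟨s, h3, h4⟩ := step a h2 (hd.trans h1.1.symm)
      exact ⟨s, ⟨hat_hat_left he he h1 h3, h4⟩, h3⟩) (step p h hd)
  exact ⟨k, hkk, hk.1, hk.2⟩

lemma factor_right [Finite Q] {e y : TR Q} (he : Loc e e) (hy : Loc e y) {p q : Q × Bool}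
    (h : y p q) (hd : q.2 = p.2) : ∃ k, hat e e k k ∧ hat y e p k ∧ e k q := by
  rw [← hy.dr p.2, dmul_iff rfl] at h
  rcases h with ⟨h1, -⟩ | ⟨s₀, t, h1, h2, h3, h4, h5⟩
  · exact absurd hd h1
  have ht : t.2 = p.2 := h4.trans hd
  simp only [ht, if_true] at h5
  obtain ⟨k, hk, ⟨h6, r, h7, h8, h9⟩, h10⟩ := factor_left he he h5 h4.symm
  refine ⟨k, hk, ⟨h6.trans ht, r, h7.trans ht, ?_, h9⟩, h10⟩
  rw [← hy.dr p.2, dmul_iff rfl]
  exact Or.inr ⟨s₀, t, h1, h2, h3, h7.symm, by simpa [ht] using h8⟩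

/-- The class of a point. -/
def cls (e : TR Q) (k : Q × Bool) : Set (Q × Bool) := {l | hat e e k l ∧ hat e e l k}

/-- The support of `y` relative to `e`. -/
def supp (e y : TR Q) : Set (Set (Q × Bool)) :=
  {C | ∃ k, hat e e k k ∧ ¬ hat y e k k ∧ C = cls e k}

lemma cls_eq {e : TR Q} (he : Loc e e) {k l : Q × Bool} (h1 : hat e e k l) (h2 : hat e e l k) :
    cls e k = cls e l := by
  ext m
  exact ⟨fun h => ⟨hat_hat_left he he h2 h.1, hat_hat_left he he h.2 h1⟩,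
    fun h => ⟨hat_hat_left he he h1 h.1, hat_hat_left he he h.2 h2⟩⟩

lemma hat_of_cls_eq {e : TR Q} {k l : Q × Bool} (hl : hat e e l l) (h : cls e k = cls e l) :
    hat e e k l ∧ hat e e l k := by
  have : l ∈ cls e l := ⟨hl, hl⟩
  rwa [← h] at this

lemma supp_self (e : TR Q) : supp e e = ∅ := by
  ext C
  simp only [supp, Set.mem_ofPred_eq, Set.mem_empty_iff_false, iff_false]
  rintro ⟨k, h1, h2, -⟩
  exact h2 h1

lemma supp_mul {e y z : TR Q} (hy : Loc e y) (hz : Loc e z) :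
    supp e (y * z) ⊆ supp e y ∪ supp e z := by
  rintro C ⟨k, h1, h2, rfl⟩
  by_contra hh
  simp only [Set.mem_union, not_or] at hh
  have hy' : hat y e k k := by
    by_contra h; exact hh.1 ⟨k, h1, h, rfl⟩
  have hz' : hat z e k k := by
    by_contra h; exact hh.2 ⟨k, h1, h, rfl⟩
  apply h2
  cases hk : k.2
  · obtain ⟨-, s, a, b, c⟩ := hy'
    have := lax hz hy hz' b a
    rw [hk] at this
    exact ⟨rfl, s, a, this, c⟩
  · obtain ⟨-, s, a, b, c⟩ := hz'
    have := lax hy hz hy' b a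
    rw [hk] at this
    exact ⟨rfl, s, a, this, c⟩

lemma le_of_supp_empty [Finite Q] {e y : TR Q} (he : Loc e e) (hy : Loc e y)
    (h : supp e y = ∅) (p q : Q × Bool) (hpq : e p q) : y p q := by
  by_cases hd : p.2 = q.2
  · obtain ⟨k, h1, h2, h3⟩ := factor_left he he hpq hd.symm
    have h4 : hat y e k k := by
      by_contra hh
      have : cls e k ∈ supp e y := ⟨k, h1, hh, rfl⟩
      rw [h] at this; exact this
    exact hat_right he hy (hat_hat_left he hy h2 h4) h3 (hd.symm.trans h2.1.symm)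
  · exact hy.bounce hd hpq

lemma supp_ncard_le [Fintype Q] (e y : TR Q) : (supp e y).ncard ≤ 2 * Fintype.card Q := by
  have h1 : supp e y ⊆ cls e '' Set.univ := by
    rintro C ⟨k, -, -, rfl⟩; exact ⟨k, trivial, rfl⟩
  calc (supp e y).ncard ≤ (cls e '' Set.univ).ncard := Set.ncard_le_ncard h1
    _ ≤ (Set.univ : Set (Q × Bool)).ncard := Set.ncard_image_le
    _ = 2 * Fintype.card Q := by simp [Set.ncard_univ, mul_comm]

/-- A deterministic behaviour. -/
def Functional (f : TR Q) : Prop := ∀ p q q', f p q → f p q' → q = q'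

/-- Transfer of supports along a factorisation `α * e * β = f`. -/
lemma transfer [Finite Q] [hQ : Nonempty Q] {e f α β : TR Q} (he : Loc e e) (hf : Loc f f) (h : α * e * β = f)
    {μ : ℕ} (hμ : 2 ≤ μ ∨ (1 ≤ μ ∧ Functional f)) :
    ∃ N : Set (Set (Q × Bool)) → Set (Set (Q × Bool)), Monotone N ∧
      (∀ W, (N W).ncard ≤ μ * W.ncard) ∧ ∀ y, Loc e y → supp f (α * y * β) ⊆ N (supp e y) := by
  have hbeh : ∀ y : TR Q, α * y * β = beh [α, y, β] := by
    intro y; rw [beh_eq_prod]; simp [mul_assoc]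
  let A1 : Q × Bool → Q × Bool → Prop := fun k' k => ∃ N : ℕ × (Q × Bool),
    ReflTransGen (LStep [α, e, β]) (entry 3 k) N ∧ N.1 = (if N.2.2 then 1 else 2) ∧
      hat e e N.2 k'
  let A2 : Q × Bool → Q × Bool → Prop := fun k' p => ∃ N' : ℕ × (Q × Bool),
    e k' N'.2 ∧ N'.2.2 = k'.2 ∧ N'.1 = (if N'.2.2 then 2 else 1) ∧
      ReflTransGen (LStep [α, e, β]) N' (exit 3 p)
  have splice : ∀ k₁' k₂' k p, A1 k₁' k → hat e e k₁' k₂' → A2 k₂' p → f k p := by
    rintro k₁' k₂' k p ⟨N, a1, a2, a3⟩ hk ⟨N', b1, b2, b3, b4⟩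
    rw [← h, hbeh]
    refine (a1.tail ⟨1, e, by simp, by simpa using a2, ?_, by simpa using b3⟩).trans b4
    exact hat_left he he (hat_hat_left he he a3 hk) b1 b2
  let Assoc : Q × Bool → Q × Bool → Prop := fun k' k =>
    hat e e k' k' ∧ A1 k' k ∧ ∃ p, A2 k' p ∧ p.2 = k.2 ∧ bnc f p k
  have uniq : ∀ k₁' k₁ k₂' k₂, Assoc k₁' k₁ → Assoc k₂' k₂ → cls e k₁' = cls e k₂' →
      k₁.2 = k₂.2 → cls f k₁ = cls f k₂ := by
    rintro k₁' k₁ k₂' k₂ ⟨a1, a2, p₁, a3, a4, a5⟩ ⟨b1, b2, p₂, b3, b4, b5⟩ hc hd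
    obtain ⟨c1, c2⟩ := hat_of_cls_eq b1 hc
    exact cls_eq hf ⟨hd.symm, p₂, b4.trans hd.symm, splice _ _ _ _ a2 c1 b3, b5⟩
      ⟨hd, p₁, a4.trans hd, splice _ _ _ _ b2 c2 a3, a5⟩
  have uniq' : Functional f → ∀ k₁' k₁ k₂' k₂, Assoc k₁' k₁ → Assoc k₂' k₂ →
      cls e k₁' = cls e k₂' → k₁.2 = k₂.2 := by
    rintro hF k₁' k₁ k₂' k₂ ⟨a1, a2, p₁, a3, a4, a5⟩ ⟨b1, b2, p₂, b3, b4, b5⟩ hc
    obtain ⟨c1, c2⟩ := hat_of_cls_eq b1 hc
    have := hF _ _ _ (splice _ _ _ _ a2 c1 b3) (splice _ _ _ _ a2 a1 a3)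
    rw [← a4, ← b4, this]
  refine ⟨fun W => {C | ∃ k' k, cls e k' ∈ W ∧ Assoc k' k ∧ C = cls f k}, ?_, ?_, ?_⟩
  · rintro W W' hW C ⟨k', k, h1, h2⟩
    exact ⟨k', k, hW h1, h2⟩
  · intro W
    have hch : ∀ C : Set (Q × Bool), ∃ kk : (Q × Bool) × (Q × Bool),
        (∃ k' k, cls e k' ∈ W ∧ Assoc k' k ∧ C = cls f k) →
          cls e kk.1 ∈ W ∧ Assoc kk.1 kk.2 ∧ C = cls f kk.2 := by
      intro C
      by_cases hC : ∃ k' k, cls e k' ∈ W ∧ Assoc k' k ∧ C = cls f k
      · obtain ⟨k', k, hh⟩ := hC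
        exact ⟨(k', k), fun _ => hh⟩
      · obtain ⟨q⟩ := hQ
        exact ⟨((q, true), (q, true)), fun hh => absurd hh hC⟩
    choose F hF using hch
    rcases hμ with hμ | ⟨hμ, hfun⟩
    · calc _ ≤ (W ×ˢ (Set.univ : Set Bool)).ncard := by
            refine Set.ncard_le_ncard_of_injOn (fun C => (cls e (F C).1, (F C).2.2)) ?_ ?_
            · intro C hC
              exact ⟨(hF C hC).1, trivial⟩
            · intro C hC C' hC' hh
              simp only [Prod.mk.injEq] at hh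
              rw [(hF C hC).2.2, (hF C' hC').2.2]
              exact uniq _ _ _ _ (hF C hC).2.1 (hF C' hC').2.1 hh.1 hh.2
        _ = 2 * W.ncard := by rw [Set.ncard_prod]; simp [mul_comm]
        _ ≤ μ * W.ncard := Nat.mul_le_mul_right _ hμ
    · calc _ ≤ W.ncard := by
            refine Set.ncard_le_ncard_of_injOn (fun C => cls e (F C).1) ?_ ?_
            · intro C hC
              exact (hF C hC).1
            · intro C hC C' hC' hh
              rw [(hF C hC).2.2, (hF C' hC').2.2]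
              exact uniq _ _ _ _ (hF C hC).2.1 (hF C' hC').2.1 hh
                (uniq' hfun _ _ _ _ (hF C hC).2.1 (hF C' hC').2.1 hh)
        _ ≤ μ * W.ncard := Nat.le_mul_of_pos_left _ hμ
  · rintro y hy C ⟨k, ⟨-, p, h1, h2, h3⟩, h4, rfl⟩
    by_contra hC
    apply h4
    refine ⟨rfl, p, h1, ?_, h3⟩
    rw [← h, hbeh] at h2
    rw [hbeh]
    have key : ∀ N, ReflTransGen (LStep [α, e, β]) (entry 3 k) N →
        ReflTransGen (LStep [α, e, β]) N (exit 3 p) →
        ReflTransGen (LStep [α, y, β]) (entry 3 k) N := by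
      intro N hN
      induction hN with
      | refl => intro _; exact ReflTransGen.refl
      | @tail N N' hw hs ih =>
        intro hw'
        refine (ih (hw'.head hs)).tail ?_
        obtain ⟨b, x, hb, a1, a2, a3⟩ := hs
        by_cases hb1 : b = 1
        · subst hb1
          have hx : x = e := by simpa using hb.symm
          subst hx
          refine ⟨1, y, by simp, a1, ?_, a3⟩
          by_cases hd : N.2.2 = N'.2.2
          · obtain ⟨k', c1, c2, c3⟩ := factor_left he he a2 hd.symm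
            have hd' : N'.2.2 = k'.2 := hd.symm.trans c2.1.symm
            have c4 : hat y x k' k' := by
              by_contra hh
              exact hC ⟨k', k, ⟨k', c1, hh, rfl⟩, ⟨c1, ⟨N, hw, by simpa using a1, c2⟩, p,
                ⟨N', c3, hd', by simpa using a3, hw'⟩, h1, h3⟩, rfl⟩
            exact hat_right he hy (hat_hat_left he hy c2 c4) c3 hd'
          · exact hy.bounce hd a2
        · refine ⟨b, x, ?_, a1, a2, a3⟩
          rcases b with _ | _ | b
          · simpa using hb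
          · exact absurd rfl hb1
          · simpa using hb
    exact key _ h2 ReflTransGen.refl

end Crest.Agent.R294
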