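import Mathlib

/-!
Two-way relations: behaviours of a two-way automaton on a segment of tape, as relations on
pairs (state, direction).  They form a monoid.
-/

set_option autoImplicit false

namespace Crest.Agent.R294

open Relation

/-- A two-way relation: entry points to exit points; `true` is the rightward direction. -/
def TR (Q : Type*) := Q × Bool → Q × Bool → Prop

variable {Q : Type*}

lemma rtg_mono {α : Type*} {r r' : α → α → Prop} (h : ∀ a b, r a b → r' a b) {a b : α}
    (hab : ReflTransGen r a b) : ReflTransGen r' a b := by
  induction hab with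
  | refl => exact ReflTransGen.refl
  | tail _ h2 ih => exact ih.tail (h _ _ h2)

instance [Finite Q] : Finite (TR Q) := by unfold TR; infer_instance

/-- One step in the block graph of a list of two-way relations. -/
def LStep (xs : List (TR Q)) (N N' : ℕ × (Q × Bool)) : Prop :=
  ∃ b x, xs[b]? = some x ∧ N.1 = (if N.2.2 then b else b + 1) ∧ x N.2 N'.2 ∧
    N'.1 = (if N'.2.2 then b + 1 else b)

def entry (n : ℕ) (p : Q × Bool) : ℕ × (Q × Bool) := (if p.2 then 0 else n, p)
def exit (n : ℕ) (p : Q × Bool) : ℕ × (Q × Bool) := (if p.2 then n else 0, p)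

/-- The behaviour of a list of blocks. -/
def beh (xs : List (TR Q)) : TR Q := fun p q =>
  ReflTransGen (LStep xs) (entry xs.length p) (exit xs.length q)

/-- Bounces at the boundary between `x` (left) and `y` (right). -/
def mid (x y : TR Q) : Q × Bool → Q × Bool → Prop :=
  ReflTransGen (fun s t => s.2 ≠ t.2 ∧ (if s.2 then y else x) s t)

def comp (x y : TR Q) : TR Q := fun p q =>
  (p.2 ≠ q.2 ∧ (if p.2 then x else y) p q) ∨
    ∃ s t, s.2 = p.2 ∧ (if p.2 then x else y) p s ∧ mid x y s t ∧ t.2 = q.2 ∧
      (if t.2 then y else x) t q

lemma LStep.le {xs : List (TR Q)} {N N' : ℕ × (Q × Bool)} (h : LStep xs N N') :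
    N'.1 ≤ xs.length := by
  obtain ⟨b, x, hb, -, -, h4⟩ := h
  have : b < xs.length := by
    by_contra hh
    rw [List.getElem?_eq_none (by omega)] at hb
    cases hb
  rw [h4]; split_ifs <;> omega

lemma embL {xs ys : List (TR Q)} {N N' : ℕ × (Q × Bool)}
    (h : ReflTransGen (LStep xs) N N') : ReflTransGen (LStep (xs ++ ys)) N N' := by
  refine rtg_mono ?_ h
  rintro N N' ⟨b, x, hb, h2⟩
  refine ⟨b, x, ?_, h2⟩
  have : b < xs.length := by
    by_contra hh
    rw [List.getElem?_eq_none (by omega)] at hb
    cases hb
  rw [List.getElem?_append_left this]; exact hb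

lemma embR {xs ys : List (TR Q)} {N N' : ℕ × (Q × Bool)}
    (h : ReflTransGen (LStep ys) N N') :
    ReflTransGen (LStep (xs ++ ys)) (N.1 + xs.length, N.2) (N'.1 + xs.length, N'.2) := by
  induction h with
  | refl => exact ReflTransGen.refl
  | tail _ h2 ih =>
    refine ih.tail ?_
    obtain ⟨b, x, hb, h2, h3, h4⟩ := h2
    refine ⟨b + xs.length, x, ?_, ?_, h3, ?_⟩
    · rw [List.getElem?_append_right (by omega)]; simpa using hb
    · simp only [h2]; split_ifs <;> omega
    · simp only [h4]; split_ifs <;> omega

lemma behL {xs ys : List (TR Q)} {s t : Q × Bool} (h : beh xs s t) :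
    ReflTransGen (LStep (xs ++ ys)) (if s.2 then 0 else xs.length, s)
      (if t.2 then xs.length else 0, t) := embL h

lemma behR {xs ys : List (TR Q)} {s t : Q × Bool} (h : beh ys s t) :
    ReflTransGen (LStep (xs ++ ys)) (if s.2 then xs.length else (xs ++ ys).length, s)
      (if t.2 then (xs ++ ys).length else xs.length, t) := by
  have := embR (xs := xs) h
  simp only [entry, exit] at this
  convert this using 2 <;> split_ifs <;> simp [add_comm]

lemma beh_append_of_comp {xs ys : List (TR Q)} {p q : Q × Bool}
    (h : comp (beh xs) (beh ys) p q) : beh (xs ++ ys) p q := by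
  have hmid : ∀ s t, mid (beh xs) (beh ys) s t →
      ReflTransGen (LStep (xs ++ ys)) (xs.length, s) (xs.length, t) := by
    intro s t h
    induction h with
    | refl => exact ReflTransGen.refl
    | @tail b c _ h2 ih =>
      refine ih.trans ?_
      obtain ⟨h1, h2⟩ := h2
      cases hb : b.2
      · have hc : c.2 = true := by cases hc : c.2 <;> simp_all
        simp only [hb] at h2
        have := behL (ys := ys) h2
        simpa [hb, hc] using this
      · have hc : c.2 = false := by cases hc : c.2 <;> simp_all
        simp only [hb] at h2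
        have := behR (xs := xs) h2
        simpa [hb, hc] using this
  unfold beh entry exit
  rcases h with ⟨h1, h2⟩ | ⟨s, t, h1, h2, h3, h4, h5⟩
  · cases hp : p.2
    · have hq : q.2 = true := by cases hc : q.2 <;> simp_all
      simp only [hp] at h2
      have := behR (xs := xs) h2
      simpa [hp, hq] using this
    · have hq : q.2 = false := by cases hc : q.2 <;> simp_all
      simp only [hp] at h2
      have := behL (ys := ys) h2
      simpa [hp, hq] using this
  · have A : ReflTransGen (LStep (xs ++ ys)) (if p.2 then 0 else (xs ++ ys).length, p)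
        (xs.length, s) := by
      cases hp : p.2
      · simp only [hp] at h2
        have := behR (xs := xs) h2
        simpa [hp, h1] using this
      · simp only [hp] at h2
        have := behL (ys := ys) h2
        simpa [hp, h1] using this
    have B : ReflTransGen (LStep (xs ++ ys)) (xs.length, t)
        (if q.2 then (xs ++ ys).length else 0, q) := by
      cases hq : q.2
      · simp only [h4, hq] at h5
        have := behL (ys := ys) h5
        simpa [hq, h4] using this
      · simp only [h4, hq] at h5
        have := behR (xs := xs) h5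
        simpa [hq, h4] using this
    exact (A.trans (hmid s t h3)).trans B

lemma comp_of_beh_append {xs ys : List (TR Q)} {p q : Q × Bool}
    (h : beh (xs ++ ys) p q) : comp (beh xs) (beh ys) p q := by
  set n := xs.length with hn
  set m := ys.length with hm
  let Mid : Q × Bool → Prop := fun s =>
    ∃ s₀, s₀.2 = p.2 ∧ (if p.2 then beh xs else beh ys) p s₀ ∧ mid (beh xs) (beh ys) s₀ s
  let SrcL : Q × Bool → Prop := fun s => (s = p ∧ p.2 = true) ∨ (s.2 = false ∧ Mid s)
  let SrcR : Q × Bool → Prop := fun s => (s = p ∧ p.2 = false) ∨ (s.2 = true ∧ Mid s)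
  have keyL : ∀ s t, SrcL s → beh xs s t → t.2 = true → Mid t := by
    rintro s t (⟨rfl, h1⟩ | ⟨h1, s₀, h2, h3, h4⟩) h5 h6
    · exact ⟨t, by rw [h6, h1], by simpa [h1] using h5, ReflTransGen.refl⟩
    · exact ⟨s₀, h2, h3, h4.tail ⟨by simp [h1, h6], by simpa [h1] using h5⟩⟩
  have keyR : ∀ s t, SrcR s → beh ys s t → t.2 = false → Mid t := by
    rintro s t (⟨rfl, h1⟩ | ⟨h1, s₀, h2, h3, h4⟩) h5 h6
    · exact ⟨t, by rw [h6, h1], by simpa [h1] using h5, ReflTransGen.refl⟩
    · exact ⟨s₀, h2, h3, h4.tail ⟨by simp [h1, h6], by simpa [h1] using h5⟩⟩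
  let Inv : ℕ × (Q × Bool) → Prop := fun N =>
    (∃ s, SrcL s ∧ ReflTransGen (LStep xs) (entry n s) N ∧ N.1 ≤ n) ∨
    (∃ s, SrcR s ∧ ∃ i, N.1 = i + n ∧ ReflTransGen (LStep ys) (entry m s) (i, N.2) ∧ i ≤ m)
  have hInv : ∀ N, ReflTransGen (LStep (xs ++ ys)) (entry (xs ++ ys).length p) N → Inv N := by
    intro N hN
    induction hN with
    | refl =>
      cases hp : p.2
      · right
        refine ⟨p, Or.inl ⟨rfl, hp⟩, m, ?_, ?_, le_rfl⟩
        · simp [entry, hp, hn, hm, add_comm]
        · simp only [entry, hp]; exact ReflTransGen.refl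
      · left
        refine ⟨p, Or.inl ⟨rfl, hp⟩, ?_, ?_⟩
        · simp only [entry, hp]; exact ReflTransGen.refl
        · simp [entry, hp]
    | @tail N N' _ h2 ih =>
      obtain ⟨b, x, hb, h2, h3, h4⟩ := h2
      by_cases hbn : b < n
      · rw [List.getElem?_append_left hbn] at hb
        have hstep : LStep xs N N' := ⟨b, x, hb, h2, h3, h4⟩
        left
        rcases ih with ⟨s, hs, hw, -⟩ | ⟨s, hs, i, hi, hw, -⟩
        · exact ⟨s, hs, hw.tail hstep, hstep.le⟩
        · have hd : N.2.2 = false := by
            cases hd : N.2.2
            · rfl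
            · simp only [hd, if_true] at h2; omega
          simp only [hd] at h2
          have hi0 : i = 0 := by simp at h2; omega
          have hM : Mid N.2 := keyR s N.2 hs (by
            unfold beh exit; simpa [hd, hi0] using hw) hd
          refine ⟨N.2, Or.inr ⟨hd, hM⟩, ReflTransGen.single ?_, hstep.le⟩
          have : entry n N.2 = N := by
            unfold entry; ext1
            · simp [hd]; omega
            · rfl
          rw [this]; exact hstep
      · rw [List.getElem?_append_right (by omega)] at hb
        right
        have hN' : n ≤ N'.1 := by rw [h4]; split_ifs <;> omega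
        have hN : n ≤ N.1 := by rw [h2]; split_ifs <;> omega
        have hstep : LStep ys (N.1 - n, N.2) (N'.1 - n, N'.2) := by
          refine ⟨b - n, x, hb, ?_, h3, ?_⟩
          · simp only [h2]; split_ifs <;> omega
          · simp only [h4]; split_ifs <;> omega
        rcases ih with ⟨s, hs, hw, hle⟩ | ⟨s, hs, i, hi, hw, -⟩
        · have hd : N.2.2 = true := by
            cases hd : N.2.2
            · simp [hd] at h2; omega
            · rfl
          have hNn : N.1 = n := by omega
          have hM : Mid N.2 := keyL s N.2 hs (by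
            unfold beh exit
            have : N = (n, N.2) := by ext1 <;> simp [hNn]
            rw [this] at hw
            simpa [hd] using hw) hd
          refine ⟨N.2, Or.inr ⟨hd, hM⟩, N'.1 - n, by omega, ReflTransGen.single ?_, hstep.le⟩
          have : entry m N.2 = (N.1 - n, N.2) := by
            unfold entry; simp [hd, hNn]
          rw [this]; exact hstep
        · refine ⟨s, hs, N'.1 - n, by omega, hw.tail ?_, hstep.le⟩
          have : i = N.1 - n := by omega
          rw [this]; exact hstep
  have hfin := hInv _ h
  have hlen : (xs ++ ys).length = n + m := by simp [hn, hm]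
  rcases hfin with ⟨s, hs, hw, hle⟩ | ⟨s, hs, i, hi, hw, hle⟩
  · cases hq : q.2
    · have hb : beh xs s q := by
        unfold beh; simpa [exit, hq] using hw
      rcases hs with ⟨rfl, h1⟩ | ⟨h1, s₀, h2, h3, h4⟩
      · left; exact ⟨by simp [h1, hq], by simpa [h1] using hb⟩
      · right; exact ⟨s₀, s, h2, h3, h4, by rw [h1, hq], by simpa [h1] using hb⟩
    · have hm0 : m = 0 := by simp [exit, hq, hlen] at hle; omega
      have hb : beh xs s q := by
        unfold beh; simpa [exit, hq, hlen, hm0] using hw
      obtain ⟨s₀, h2, h3, h4⟩ := keyL s q hs hb hq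
      right
      refine ⟨s₀, q, h2, h3, h4, rfl, ?_⟩
      simp only [hq, if_true]
      unfold beh entry exit
      simp only [hq, if_true, ← hm, hm0]
      exact ReflTransGen.refl
  · cases hq : q.2
    · have hn0 : n = 0 ∧ i = 0 := by simp [exit, hq] at hi; omega
      have hb : beh ys s q := by
        unfold beh; simpa [exit, hq, hn0.2] using hw
      obtain ⟨s₀, h2, h3, h4⟩ := keyR s q hs hb hq
      right
      refine ⟨s₀, q, h2, h3, h4, rfl, ?_⟩
      simp only [hq]
      unfold beh entry exit
      simp only [← hn, hn0.1]
      exact ReflTransGen.refl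
    · have hi' : i = m := by simp [exit, hq, hlen] at hi; omega
      have hb : beh ys s q := by
        unfold beh; simpa [exit, hq, hi'] using hw
      rcases hs with ⟨rfl, h1⟩ | ⟨h1, s₀, h2, h3, h4⟩
      · left; exact ⟨by simp [h1, hq], by simpa [h1] using hb⟩
      · right; exact ⟨s₀, s, h2, h3, h4, by rw [h1, hq], by simpa [h1] using hb⟩

lemma beh_append (xs ys : List (TR Q)) : beh (xs ++ ys) = comp (beh xs) (beh ys) := by
  funext p q
  exact propext ⟨comp_of_beh_append, beh_append_of_comp⟩

lemma beh_singleton (x : TR Q) : beh [x] = x := by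
  funext p q
  apply propext
  constructor
  · intro h
    unfold beh at h
    have key : ∀ N, ReflTransGen (LStep [x]) (entry 1 p) N →
        N = entry 1 p ∨ (N = exit 1 N.2 ∧ x p N.2) := by
      intro N hN
      induction hN with
      | refl => left; rfl
      | @tail N N' _ h2 ih =>
        obtain ⟨b, y, hb, h2, h3, h4⟩ := h2
        have hb0 : b = 0 := by
          rcases b with _ | b
          · rfl
          · simp at hb
        subst hb0
        have hy : y = x := by simpa using hb.symm
        subst hy
        rcases ih with rfl | ⟨h5, -⟩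
        · right
          refine ⟨?_, h3⟩
          unfold exit; ext1
          · simpa using h4
          · rfl
        · exfalso
          have := congrArg Prod.fst h5
          simp only [exit] at this
          rw [this] at h2
          split_ifs at h2
    rcases key _ h with h1 | ⟨-, h2⟩
    · exfalso
      have h2 : q = p := congrArg Prod.snd h1
      have h3 := congrArg Prod.fst h1
      simp only [exit, entry, h2, List.length_singleton] at h3
      split_ifs at h3
    · exact h2
  · intro h
    refine ReflTransGen.single ⟨0, x, by simp, ?_, h, ?_⟩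
    · simp [entry]
    · simp [exit]

lemma beh_nil (p q : Q × Bool) : beh ([] : List (TR Q)) p q ↔ p = q := by
  constructor
  · intro h
    unfold beh at h
    have key : ∀ N N' : ℕ × (Q × Bool), ReflTransGen (LStep []) N N' → N = N' := by
      intro N N' hN
      induction hN with
      | refl => rfl
      | tail _ h2 _ => obtain ⟨b, y, hb, -⟩ := h2; simp at hb
    exact congrArg Prod.snd (key _ _ h)
  · rintro rfl
    unfold beh entry exit
    simp only [List.length_nil, ite_self]
    exact ReflTransGen.refl

instance : Monoid (TR Q) where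
  mul := comp
  one := beh []
  mul_assoc x y z := by
    show comp (comp x y) z = comp x (comp y z)
    conv_lhs => rw [← beh_singleton x, ← beh_singleton y, ← beh_singleton z, ← beh_append,
      ← beh_append]
    conv_rhs => rw [← beh_singleton x, ← beh_singleton y, ← beh_singleton z, ← beh_append,
      ← beh_append]
    simp
  one_mul x := by
    show comp (beh []) x = x
    conv_lhs => rw [← beh_singleton x, ← beh_append]
    simp [beh_singleton]
  mul_one x := by
    show comp x (beh []) = x
    conv_lhs => rw [← beh_singleton x, ← beh_append]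
    simp [beh_singleton]

lemma mul_def (x y : TR Q) : x * y = comp x y := rfl

lemma beh_eq_prod (xs : List (TR Q)) : beh xs = xs.prod := by
  induction xs with
  | nil => rfl
  | cons x xs ih =>
    rw [List.prod_cons, ← ih, mul_def]
    conv_rhs => rw [← beh_singleton x, ← beh_append]
    rfl

lemma mul_mono {x y x' y' : TR Q} (hx : ∀ p q, x p q → x' p q) (hy : ∀ p q, y p q → y' p q)
    (p q : Q × Bool) (h : (x * y) p q) : (x' * y') p q := by
  have h1 : ∀ (d : Bool) p q, (if d then x else y) p q → (if d then x' else y') p q := by
    intro d p q; cases d <;> simp only [if_true, Bool.false_eq_true, if_false]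
    exacts [hy p q, hx p q]
  have h2 : ∀ (d : Bool) p q, (if d then y else x) p q → (if d then y' else x') p q := by
    intro d p q; cases d <;> simp only [if_true, Bool.false_eq_true, if_false]
    exacts [hx p q, hy p q]
  rcases h with ⟨a, b⟩ | ⟨s, t, a, b, c, d, e⟩
  · exact Or.inl ⟨a, h1 _ _ _ b⟩
  · exact Or.inr ⟨s, t, a, h1 _ _ _ b,
      rtg_mono (fun s t h => ⟨h.1, h2 _ _ _ h.2⟩) c, d, h2 _ _ _ e⟩

end Crest.Agent.R294
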